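import Mathlib

/-!
The standard model of bounded-error quantum query algorithms with a finite workspace, and the
three facts on overlaps of final states that a hybrid argument needs.
-/

namespace Vale.Agent.Lib.P362

open Finset Matrix

/-- Basis labels of the register: queried index, answer bit, workspace. -/
abbrev Idx (n : ℕ) (W : Type) := Fin n × Bool × W

variable {n : ℕ} {W : Type} [Fintype W] [DecidableEq W]

/-- The query unitary `|i,b,z⟩ ↦ |i,b ⊕ x i,z⟩`, on amplitude vectors. -/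
def oracle (x : Fin n → Bool) (ψ : Idx n W → ℂ) : Idx n W → ℂ :=
  fun p => ψ (p.1, xor p.2.1 (x p.1), p.2.2)

/-- A quantum query algorithm: interleaved unitaries `U 0, U 1, …`, a unit start vector, and the
set of accepting basis labels. -/
structure QueryAlg (n : ℕ) (W : Type) [Fintype W] [DecidableEq W] where
  U : ℕ → Matrix.unitaryGroup (Idx n W) ℂ
  start : Idx n W → ℂ
  start_unit : ∑ p, ‖start p‖ ^ 2 = 1
  acc : Finset (Idx n W)

namespace QueryAlg

variable (A : QueryAlg n W)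

/-- The state after `t` queries on input `x`: `U t O_x U (t-1) O_x ⋯ O_x U 0 start`. -/
noncomputable def run (x : Fin n → Bool) : ℕ → Idx n W → ℂ
  | 0 => (A.U 0 : Matrix (Idx n W) (Idx n W) ℂ) *ᵥ A.start
  | t + 1 => (A.U (t + 1) : Matrix (Idx n W) (Idx n W) ℂ) *ᵥ oracle x (run x t)

/-- The acceptance probability after `T` queries. -/
noncomputable def accProb (T : ℕ) (x : Fin n → Bool) : ℝ := ∑ p ∈ A.acc, ‖A.run x T p‖ ^ 2

/-- `A` computes `f` with `T` queries and error at most `1/3`. -/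
def Computes (T : ℕ) (f : (Fin n → Bool) → Bool) : Prop :=
  ∀ x, (f x = true → 2 / 3 ≤ A.accProb T x) ∧ (f x = false → A.accProb T x ≤ 1 / 3)

end QueryAlg

/-- Inner product of amplitude vectors. -/
noncomputable def ip (a b : Idx n W → ℂ) : ℂ := ∑ p, star (a p) * b p

/-- Squared norm of an amplitude vector. -/
noncomputable def nrm (a : Idx n W → ℂ) : ℝ := ∑ p, ‖a p‖ ^ 2

/-- The query mass at index `i`. -/
noncomputable def mass (a : Idx n W → ℂ) (i : Fin n) : ℝ := ∑ q : Bool × W, ‖a (i, q)‖ ^ 2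

omit [DecidableEq W] in
lemma sum_mass (a : Idx n W → ℂ) : ∑ i, mass a i = nrm a := by
  unfold mass nrm
  rw [Fintype.sum_prod_type]

omit [DecidableEq W] in
lemma mass_nonneg (a : Idx n W → ℂ) (i : Fin n) : 0 ≤ mass a i :=
  sum_nonneg (fun _ _ => by positivity)

omit [DecidableEq W] in
lemma ip_self (a : Idx n W → ℂ) : ip a a = (nrm a : ℂ) := by
  unfold ip nrm
  push_cast
  apply sum_congr rfl
  intro p _
  rw [Complex.star_def, Complex.conj_mul']

lemma ip_unitary (U : Matrix.unitaryGroup (Idx n W) ℂ) (a b : Idx n W → ℂ) :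
    ip ((U : Matrix (Idx n W) (Idx n W) ℂ) *ᵥ a) ((U : Matrix (Idx n W) (Idx n W) ℂ) *ᵥ b)
      = ip a b := by
  have h : star (U : Matrix (Idx n W) (Idx n W) ℂ) * (U : Matrix (Idx n W) (Idx n W) ℂ) = 1 :=
    Matrix.mem_unitaryGroup_iff'.mp U.2
  have e : ∀ c d : Idx n W → ℂ, ip c d = star c ⬝ᵥ d := fun c d => rfl
  rw [e, e, Matrix.star_mulVec, ← Matrix.dotProduct_mulVec, Matrix.mulVec_mulVec]
  have h' : (U : Matrix (Idx n W) (Idx n W) ℂ)ᴴ * (U : Matrix (Idx n W) (Idx n W) ℂ) = 1 := h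
  rw [h', Matrix.one_mulVec]

lemma nrm_unitary (U : Matrix.unitaryGroup (Idx n W) ℂ) (a : Idx n W → ℂ) :
    nrm ((U : Matrix (Idx n W) (Idx n W) ℂ) *ᵥ a) = nrm a := by
  have := ip_unitary U a a
  rw [ip_self, ip_self] at this
  exact_mod_cast this

/-- The flip of the answer bit. -/
def bitFlip (c : Bool) : Equiv.Perm (Bool × W) where
  toFun q := (xor q.1 c, q.2)
  invFun q := (xor q.1 c, q.2)
  left_inv q := by simp
  right_inv q := by simp

/-- The flip of the answer bit as a permutation of all the labels. -/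
def orPerm (x : Fin n → Bool) : Equiv.Perm (Idx n W) where
  toFun p := (p.1, xor p.2.1 (x p.1), p.2.2)
  invFun p := (p.1, xor p.2.1 (x p.1), p.2.2)
  left_inv p := by simp
  right_inv p := by simp

omit [DecidableEq W] in
lemma nrm_oracle (x : Fin n → Bool) (a : Idx n W → ℂ) : nrm (oracle x a) = nrm a :=
  Equiv.sum_comp (orPerm x) (fun p => ‖a p‖ ^ 2)

omit [DecidableEq W] in
lemma ip_oracle_slices (x y : Fin n → Bool) (a b : Idx n W → ℂ) :
    ip (oracle x a) (oracle y b) =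
      ∑ i, ∑ q : Bool × W, star (a (i, bitFlip (x i) q)) * b (i, bitFlip (y i) q) := by
  unfold ip
  rw [Fintype.sum_prod_type]
  rfl

omit [DecidableEq W] in
lemma ip_slices (a b : Idx n W → ℂ) :
    ip a b = ∑ i, ∑ q : Bool × W, star (a (i, q)) * b (i, q) := by
  unfold ip
  rw [Fintype.sum_prod_type]

omit [Fintype W] [DecidableEq W] in
lemma term_bound {u w s : ℝ} (hs : 0 < s) (α β : ℂ) :
    u * w * ‖star α * β‖ ≤ (s / 2) * u ^ 2 * ‖α‖ ^ 2 + (1 / (2 * s)) * w ^ 2 * ‖β‖ ^ 2 := by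
  rw [norm_mul, norm_star]
  have h : 0 ≤ (s * u * ‖α‖ - w * ‖β‖) ^ 2 := sq_nonneg _
  have e : (s / 2) * u ^ 2 * ‖α‖ ^ 2 + (1 / (2 * s)) * w ^ 2 * ‖β‖ ^ 2 - u * w * (‖α‖ * ‖β‖)
      = (s * u * ‖α‖ - w * ‖β‖) ^ 2 / (2 * s) := by
    field_simp
    ring
  have : 0 ≤ (s * u * ‖α‖ - w * ‖β‖) ^ 2 / (2 * s) := by positivity
  linarith

/-- The overlap changes only through the mass at an index where the two inputs differ. -/
lemma step_bound {x y : Fin n → Bool} {i0 : Fin n} (hxy : ∀ j, j ≠ i0 → x j = y j)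
    {u w s : ℝ} (hu : 0 ≤ u) (hw : 0 ≤ w) (hs : 0 < s) (a b : Idx n W → ℂ) :
    u * w * ‖ip (oracle x a) (oracle y b) - ip a b‖
      ≤ s * u ^ 2 * mass a i0 + (1 / s) * w ^ 2 * mass b i0 := by
  rw [ip_oracle_slices, ip_slices, ← sum_sub_distrib]
  have hzero : ∀ i ∈ (univ : Finset (Fin n)), i ≠ i0 →
      (∑ q : Bool × W, star (a (i, bitFlip (x i) q)) * b (i, bitFlip (y i) q)
        - ∑ q : Bool × W, star (a (i, q)) * b (i, q)) = 0 := by
    intro i _ hi
    rw [← hxy i hi, sub_eq_zero]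
    exact Equiv.sum_comp (bitFlip (x i)) (fun q => star (a (i, q)) * b (i, q))
  rw [sum_eq_single_of_mem i0 (mem_univ _) hzero, ← sum_sub_distrib]
  have huw : 0 ≤ u * w := mul_nonneg hu hw
  have e1 : ∑ q : Bool × W, ‖a (i0, bitFlip (x i0) q)‖ ^ 2 = mass a i0 :=
    Equiv.sum_comp (bitFlip (x i0)) (fun q => ‖a (i0, q)‖ ^ 2)
  have e2 : ∑ q : Bool × W, ‖b (i0, bitFlip (y i0) q)‖ ^ 2 = mass b i0 :=
    Equiv.sum_comp (bitFlip (y i0)) (fun q => ‖b (i0, q)‖ ^ 2)
  calc u * w * ‖∑ q : Bool × W, (star (a (i0, bitFlip (x i0) q)) * b (i0, bitFlip (y i0) q)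
          - star (a (i0, q)) * b (i0, q))‖
      ≤ u * w * ∑ q : Bool × W, (‖star (a (i0, bitFlip (x i0) q)) * b (i0, bitFlip (y i0) q)‖
          + ‖star (a (i0, q)) * b (i0, q)‖) := by
        apply mul_le_mul_of_nonneg_left _ huw
        refine (norm_sum_le _ _).trans (sum_le_sum (fun q _ => norm_sub_le _ _))
    _ = ∑ q : Bool × W, (u * w * ‖star (a (i0, bitFlip (x i0) q)) * b (i0, bitFlip (y i0) q)‖
          + u * w * ‖star (a (i0, q)) * b (i0, q)‖) := by
        rw [mul_sum]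
        exact sum_congr rfl (fun q _ => by ring)
    _ ≤ ∑ q : Bool × W, (((s / 2) * u ^ 2 * ‖a (i0, bitFlip (x i0) q)‖ ^ 2
            + (1 / (2 * s)) * w ^ 2 * ‖b (i0, bitFlip (y i0) q)‖ ^ 2)
          + ((s / 2) * u ^ 2 * ‖a (i0, q)‖ ^ 2 + (1 / (2 * s)) * w ^ 2 * ‖b (i0, q)‖ ^ 2)) :=
        sum_le_sum (fun q _ => add_le_add (term_bound hs _ _) (term_bound hs _ _))
    _ = (s / 2) * u ^ 2 * ∑ q : Bool × W, ‖a (i0, bitFlip (x i0) q)‖ ^ 2
          + (1 / (2 * s)) * w ^ 2 * ∑ q : Bool × W, ‖b (i0, bitFlip (y i0) q)‖ ^ 2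
          + ((s / 2) * u ^ 2 * mass a i0 + (1 / (2 * s)) * w ^ 2 * mass b i0) := by
        unfold mass
        simp only [sum_add_distrib, mul_sum]
    _ = s * u ^ 2 * mass a i0 + (1 / s) * w ^ 2 * mass b i0 := by
        rw [e1, e2]
        field_simp
        ring

/-- Two unit vectors with acceptance probabilities at distance at least `1/3` have overlap at
most `17/18`. -/
lemma final_bound (a b : Idx n W → ℂ) (hna : nrm a = 1) (hnb : nrm b = 1)
    (acc : Finset (Idx n W)) (h : 1 / 3 ≤ |∑ p ∈ acc, ‖a p‖ ^ 2 - ∑ p ∈ acc, ‖b p‖ ^ 2|) :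
    ‖ip a b‖ ≤ 17 / 18 := by
  set pa := ∑ p ∈ acc, ‖a p‖ ^ 2 with hpa
  set pb := ∑ p ∈ acc, ‖b p‖ ^ 2 with hpb
  set A := ∑ p ∈ acc, ‖a p‖ * ‖b p‖ with hA
  set B := ∑ p ∈ accᶜ, ‖a p‖ * ‖b p‖ with hB
  have hca : ∑ p ∈ accᶜ, ‖a p‖ ^ 2 = 1 - pa := by
    have := sum_add_sum_compl acc (fun p => ‖a p‖ ^ 2)
    unfold nrm at hna
    rw [hna] at this
    linarith
  have hcb : ∑ p ∈ accᶜ, ‖b p‖ ^ 2 = 1 - pb := by
    have := sum_add_sum_compl acc (fun p => ‖b p‖ ^ 2)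
    unfold nrm at hnb
    rw [hnb] at this
    linarith
  have h1 : ‖ip a b‖ ≤ A + B := by
    unfold ip
    refine (norm_sum_le _ _).trans ?_
    rw [hA, hB, sum_add_sum_compl]
    apply le_of_eq
    apply sum_congr rfl
    intro p _
    rw [norm_mul, norm_star]
  have hA0 : 0 ≤ A := sum_nonneg (fun _ _ => by positivity)
  have hB0 : 0 ≤ B := sum_nonneg (fun _ _ => by positivity)
  have hA2 : A ^ 2 ≤ pa * pb := sum_mul_sq_le_sq_mul_sq _ _ _
  have hB2 : B ^ 2 ≤ (1 - pa) * (1 - pb) := by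
    rw [← hca, ← hcb]
    exact sum_mul_sq_le_sq_mul_sq _ _ _
  have hpa0 : 0 ≤ pa := sum_nonneg (fun _ _ => by positivity)
  have hpb0 : 0 ≤ pb := sum_nonneg (fun _ _ => by positivity)
  have hpa1 : 0 ≤ 1 - pa := by rw [← hca]; exact sum_nonneg (fun _ _ => by positivity)
  have hpb1 : 0 ≤ 1 - pb := by rw [← hcb]; exact sum_nonneg (fun _ _ => by positivity)
  have hu : 0 ≤ pa * (1 - pa) := mul_nonneg hpa0 hpa1
  have hv : 0 ≤ pb * (1 - pb) := mul_nonneg hpb0 hpb1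
  have hAB : 2 * (A * B) ≤ pa * (1 - pa) + pb * (1 - pb) := by
    have h4 : (2 * (A * B)) ^ 2 ≤ (pa * (1 - pa) + pb * (1 - pb)) ^ 2 := by
      have : A ^ 2 * B ^ 2 ≤ (pa * pb) * ((1 - pa) * (1 - pb)) :=
        mul_le_mul hA2 hB2 (by positivity) (mul_nonneg hpa0 hpb0)
      nlinarith [sq_nonneg (pa * (1 - pa) - pb * (1 - pb))]
    exact (pow_le_pow_iff_left₀ (by positivity) (by positivity) two_ne_zero).mp h4
  have hsq : (A + B) ^ 2 ≤ 8 / 9 := by
    have hd : (1 / 3 : ℝ) ^ 2 ≤ (pa - pb) ^ 2 := by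
      rw [← sq_abs (pa - pb)]
      exact pow_le_pow_left₀ (by norm_num) h 2
    nlinarith
  have : A + B ≤ 17 / 18 := by
    by_contra hc
    rw [not_le] at hc
    nlinarith
  linarith

end Vale.Agent.Lib.P362
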