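import Vale.Agent.Lib.P362.Clifford
import Vale.Agent.Lib.P362.Query

/-!
A spectral adversary argument.  Suppose `φ` is a nonzero real function on the subsets of `Fin m`,
supported on a family `F`, and the Clifford sum of `φ` vanishes on `F`.  If the subsets are mapped
to inputs so that toggling `i` changes only the coordinate `c i`, and the function changes value
whenever an edge leaves `F`, then every `T`-query algorithm has `m ≤ 1296 T ^ 2`.
-/

namespace Vale.Agent.Lib.P362

open Finset Matrix

variable {n m : ℕ} {W : Type} [Fintype W] [DecidableEq W]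

namespace QueryAlg

variable (A : QueryAlg n W)

lemma nrm_run (x : Fin n → Bool) (t : ℕ) : nrm (A.run x t) = 1 := by
  induction t with
  | zero =>
    show nrm ((A.U 0 : Matrix (Idx n W) (Idx n W) ℂ) *ᵥ A.start) = 1
    rw [nrm_unitary]
    exact A.start_unit
  | succ t ih =>
    show nrm ((A.U (t + 1) : Matrix (Idx n W) (Idx n W) ℂ) *ᵥ oracle x (A.run x t)) = 1
    rw [nrm_unitary, nrm_oracle, ih]

lemma ip_run_zero (x y : Fin n → Bool) : ip (A.run x 0) (A.run y 0) = 1 := by
  show ip ((A.U 0 : Matrix (Idx n W) (Idx n W) ℂ) *ᵥ A.start)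
    ((A.U 0 : Matrix (Idx n W) (Idx n W) ℂ) *ᵥ A.start) = 1
  rw [ip_unitary, ip_self]
  have : nrm A.start = 1 := A.start_unit
  rw [this]
  simp

lemma ip_run_succ (x y : Fin n → Bool) (t : ℕ) :
    ip (A.run x (t + 1)) (A.run y (t + 1)) = ip (oracle x (A.run x t)) (oracle y (A.run y t)) :=
  ip_unitary _ _ _

end QueryAlg

omit [DecidableEq W] in
lemma sum_mass_inj {c : Fin m → Fin n} (hc : Function.Injective c) (a : Idx n W → ℂ) :
    ∑ i, mass a (c i) ≤ nrm a := by
  rw [← sum_mass]
  have h : ∑ i, mass a (c i) = ∑ j ∈ (univ : Finset (Fin m)).map ⟨c, hc⟩, mass a j := by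
    rw [sum_map]
    rfl
  rw [h]
  exact sum_le_sum_of_subset_of_nonneg (subset_univ _) (fun j _ _ => mass_nonneg a j)

lemma abs_sgn (S : Finset (Fin m)) (i : Fin m) : |sgn S i| = 1 := by
  unfold sgn
  rw [abs_pow]
  simp

section Core

variable (φ : Finset (Fin m) → ℝ) (F : Finset (Fin m) → Prop) [DecidablePred F]

/-- The edge weight of the adversary. -/
noncomputable def wt (R : Finset (Fin m)) (i : Fin m) : ℝ :=
  if F R ∧ ¬ F (tog R i) then |φ R| * |dirac φ (tog R i)| else 0

lemma wt_nonneg (R : Finset (Fin m)) (i : Fin m) : 0 ≤ wt φ F R i := by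
  unfold wt
  split_ifs <;> positivity

variable {φ F}

lemma energy_lower (hoff : ∀ S, ¬ F S → φ S = 0) (hker : ∀ S, F S → dirac φ S = 0) :
    (m : ℝ) * ∑ S, (φ S) ^ 2 ≤ ∑ R, ∑ i, wt φ F R i := by
  rw [← dirac_energy]
  have h1 : ∀ S, (dirac φ S) ^ 2
      ≤ ∑ i, (if ¬ F S ∧ F (tog S i) then |dirac φ S| * |φ (tog S i)| else 0) := by
    intro S
    by_cases hS : F S
    · rw [hker S hS]
      simp [hS]
    · have h2 : |dirac φ S| ≤ ∑ i, |φ (tog S i)| := by
        unfold dirac
        refine (abs_sum_le_sum_abs _ _).trans (le_of_eq ?_)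
        apply sum_congr rfl
        intro i _
        rw [abs_mul, abs_sgn, one_mul]
      calc (dirac φ S) ^ 2 = |dirac φ S| * |dirac φ S| := by rw [abs_mul_abs_self, sq]
        _ ≤ |dirac φ S| * ∑ i, |φ (tog S i)| :=
            mul_le_mul_of_nonneg_left h2 (abs_nonneg _)
        _ = ∑ i, (if ¬ F S ∧ F (tog S i) then |dirac φ S| * |φ (tog S i)| else 0) := by
            rw [mul_sum]
            apply sum_congr rfl
            intro i _
            by_cases hi : F (tog S i)
            · rw [if_pos ⟨hS, hi⟩]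
            · rw [if_neg (fun h => hi h.2), hoff _ hi]
              simp
  refine (sum_le_sum (fun S _ => h1 S)).trans (le_of_eq ?_)
  rw [sum_comm, sum_comm (s := (univ : Finset (Finset (Fin m))))]
  apply sum_congr rfl
  intro i _
  rw [← Equiv.sum_comp (togEquiv i) (fun R => wt φ F R i)]
  apply sum_congr rfl
  intro S _
  show _ = wt φ F (tog S i) i
  unfold wt
  rw [tog_tog]
  by_cases h : ¬ F S ∧ F (tog S i)
  · rw [if_pos h, if_pos ⟨h.2, h.1⟩, mul_comm]
  · rw [if_neg h, if_neg (fun h' => h ⟨h'.2, h'.1⟩)]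

variable {c : Fin m → Fin n} {X : Finset (Fin m) → Fin n → Bool}

/-- The progress measure of the hybrid argument. -/
noncomputable def progress (φ : Finset (Fin m) → ℝ) (F : Finset (Fin m) → Prop) [DecidablePred F]
    (X : Finset (Fin m) → Fin n → Bool) (A : QueryAlg n W) (t : ℕ) : ℂ :=
  ∑ R, ∑ i, (wt φ F R i : ℂ) * ip (A.run (X R) t) (A.run (X (tog R i)) t)

lemma progress_zero (A : QueryAlg n W) :
    progress φ F X A 0 = ((∑ R, ∑ i, wt φ F R i : ℝ) : ℂ) := by
  unfold progress
  push_cast
  apply sum_congr rfl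
  intro R _
  apply sum_congr rfl
  intro i _
  rw [QueryAlg.ip_run_zero, mul_one]

lemma progress_final {f : (Fin n → Bool) → Bool} (A : QueryAlg n W) {T : ℕ}
    (hA : A.Computes T f)
    (hF : ∀ S i, F S → ¬ F (tog S i) → f (X S) ≠ f (X (tog S i))) :
    ‖progress φ F X A T‖ ≤ 17 / 18 * ∑ R, ∑ i, wt φ F R i := by
  unfold progress
  refine (norm_sum_le _ _).trans ?_
  rw [mul_sum]
  apply sum_le_sum
  intro R _
  refine (norm_sum_le _ _).trans ?_
  rw [mul_sum]
  apply sum_le_sum
  intro i _
  rw [norm_mul, Complex.norm_real, Real.norm_eq_abs, abs_of_nonneg (wt_nonneg φ F R i), mul_comm]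
  by_cases h : F R ∧ ¬ F (tog R i)
  · apply mul_le_mul_of_nonneg_right _ (wt_nonneg φ F R i)
    apply final_bound _ _ (A.nrm_run _ _) (A.nrm_run _ _) A.acc
    have hne := hF R i h.1 h.2
    have h1 := hA (X R)
    have h2 := hA (X (tog R i))
    show 1 / 3 ≤ |A.accProb T (X R) - A.accProb T (X (tog R i))|
    cases hx : f (X R) <;> cases hy : f (X (tog R i))
    · rw [hx, hy] at hne; exact absurd rfl hne
    · have a1 := h1.2 hx
      have a2 := h2.1 hy
      rw [abs_sub_comm]
      refine le_trans ?_ (le_abs_self _)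
      linarith
    · have a1 := h1.1 hx
      have a2 := h2.2 hy
      refine le_trans ?_ (le_abs_self _)
      linarith
    · rw [hx, hy] at hne; exact absurd rfl hne
  · have : wt φ F R i = 0 := by
      unfold wt
      rw [if_neg h]
    rw [this]
    simp

lemma progress_step (hc : Function.Injective c) (A : QueryAlg n W)
    (hX : ∀ S i j, j ≠ c i → X (tog S i) j = X S j) (t : ℕ) {s : ℝ} (hs : 0 < s) :
    ‖progress φ F X A (t + 1) - progress φ F X A t‖
      ≤ s * ∑ S, (φ S) ^ 2 + (1 / s) * ((m : ℝ) * ∑ S, (φ S) ^ 2) := by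
  have h1 : ∀ R i, ‖(wt φ F R i : ℂ) * ip (A.run (X R) (t + 1)) (A.run (X (tog R i)) (t + 1))
      - (wt φ F R i : ℂ) * ip (A.run (X R) t) (A.run (X (tog R i)) t)‖
      ≤ s * (φ R) ^ 2 * mass (A.run (X R) t) (c i)
        + (1 / s) * (dirac φ (tog R i)) ^ 2 * mass (A.run (X (tog R i)) t) (c i) := by
    intro R i
    rw [← mul_sub, norm_mul, Complex.norm_real, Real.norm_eq_abs, abs_of_nonneg (wt_nonneg φ F R i)]
    by_cases h : F R ∧ ¬ F (tog R i)
    · have hw : wt φ F R i = |φ R| * |dirac φ (tog R i)| := by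
        unfold wt
        rw [if_pos h]
      rw [hw, QueryAlg.ip_run_succ]
      have := step_bound (x := X R) (y := X (tog R i)) (i0 := c i)
        (fun j hj => (hX R i j hj).symm) (abs_nonneg (φ R)) (abs_nonneg (dirac φ (tog R i))) hs
        (A.run (X R) t) (A.run (X (tog R i)) t)
      rwa [sq_abs, sq_abs] at this
    · have hw : wt φ F R i = 0 := by
        unfold wt
        rw [if_neg h]
      rw [hw, zero_mul]
      have := mass_nonneg (A.run (X R) t) (c i)
      have := mass_nonneg (A.run (X (tog R i)) t) (c i)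
      positivity
  unfold progress
  rw [← sum_sub_distrib]
  calc ‖∑ R, (∑ i, (wt φ F R i : ℂ) * ip (A.run (X R) (t + 1)) (A.run (X (tog R i)) (t + 1))
        - ∑ i, (wt φ F R i : ℂ) * ip (A.run (X R) t) (A.run (X (tog R i)) t))‖
      ≤ ∑ R, ∑ i, (s * (φ R) ^ 2 * mass (A.run (X R) t) (c i)
        + (1 / s) * (dirac φ (tog R i)) ^ 2 * mass (A.run (X (tog R i)) t) (c i)) := by
        refine (norm_sum_le _ _).trans (sum_le_sum (fun R _ => ?_))
        rw [← sum_sub_distrib]
        exact (norm_sum_le _ _).trans (sum_le_sum (fun i _ => h1 R i))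
    _ = s * ∑ R, (φ R) ^ 2 * ∑ i, mass (A.run (X R) t) (c i)
        + (1 / s) * ∑ S, (dirac φ S) ^ 2 * ∑ i, mass (A.run (X S) t) (c i) := by
        simp only [sum_add_distrib]
        congr 1
        · rw [mul_sum]
          apply sum_congr rfl
          intro R _
          rw [mul_sum, mul_sum]
          apply sum_congr rfl
          intro i _
          ring
        · rw [sum_comm]
          have : ∀ i, ∑ R, (1 / s) * (dirac φ (tog R i)) ^ 2 * mass (A.run (X (tog R i)) t) (c i)
              = ∑ S, (1 / s) * (dirac φ S) ^ 2 * mass (A.run (X S) t) (c i) := fun i =>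
            Equiv.sum_comp (togEquiv i)
              (fun S => (1 / s) * (dirac φ S) ^ 2 * mass (A.run (X S) t) (c i))
          rw [sum_congr rfl (fun i _ => this i), sum_comm, mul_sum]
          apply sum_congr rfl
          intro S _
          rw [mul_sum, mul_sum]
          apply sum_congr rfl
          intro i _
          ring
    _ ≤ s * ∑ R, (φ R) ^ 2 * 1 + (1 / s) * ∑ S, (dirac φ S) ^ 2 * 1 := by
        have hone : ∀ x : Fin n → Bool, ∑ i, mass (A.run x t) (c i) ≤ 1 := fun x => by
          have := sum_mass_inj hc (A.run x t)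
          rwa [A.nrm_run] at this
        have hs' : 0 ≤ 1 / s := by positivity
        apply add_le_add
        · apply mul_le_mul_of_nonneg_left _ hs.le
          exact sum_le_sum (fun R _ => mul_le_mul_of_nonneg_left (hone _) (sq_nonneg _))
        · apply mul_le_mul_of_nonneg_left _ hs'
          exact sum_le_sum (fun R _ => mul_le_mul_of_nonneg_left (hone _) (sq_nonneg _))
    _ = s * ∑ S, (φ S) ^ 2 + (1 / s) * ((m : ℝ) * ∑ S, (φ S) ^ 2) := by
        simp only [mul_one]
        rw [dirac_energy]

/-- The adversary bound from a harmonic function. -/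
theorem adversary_bound (hc : Function.Injective c)
    (hX : ∀ S i j, j ≠ c i → X (tog S i) j = X S j)
    {f : (Fin n → Bool) → Bool}
    (hF : ∀ S i, F S → ¬ F (tog S i) → f (X S) ≠ f (X (tog S i)))
    (hne : ∃ S, φ S ≠ 0) (hoff : ∀ S, ¬ F S → φ S = 0) (hker : ∀ S, F S → dirac φ S = 0)
    (A : QueryAlg n W) (T : ℕ) (hA : A.Computes T f) :
    (m : ℝ) ≤ 1296 * (T : ℝ) ^ 2 := by
  rcases Nat.eq_zero_or_pos m with hm | hm
  · rw [hm]
    simp only [Nat.cast_zero]
    positivity
  set e := ∑ S, (φ S) ^ 2 with he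
  have he0 : 0 < e := by
    obtain ⟨S, hS⟩ := hne
    exact sum_pos' (fun _ _ => sq_nonneg _) ⟨S, mem_univ _, by positivity⟩
  set Asum := ∑ R, ∑ i, wt φ F R i with hAsum
  have h1 : (m : ℝ) * e ≤ Asum := energy_lower hoff hker
  have hAsum0 : 0 ≤ Asum := sum_nonneg (fun R _ => sum_nonneg (fun i _ => wt_nonneg φ F R i))
  have hmR : (0 : ℝ) < m := by exact_mod_cast hm
  set s := Real.sqrt m with hs
  have hs0 : 0 < s := Real.sqrt_pos.mpr hmR
  have hss : s * s = m := Real.mul_self_sqrt hmR.le
  set B := s * e + (1 / s) * ((m : ℝ) * e) with hB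
  have hBval : B = 2 * s * e := by
    rw [hB, ← hss]
    field_simp
    ring
  have hind : ∀ t : ℕ, ‖progress φ F X A 0 - progress φ F X A t‖ ≤ (t : ℝ) * B := by
    intro t
    induction t with
    | zero => simp
    | succ t ih =>
      have hstep := progress_step (φ := φ) (F := F) hc A hX t hs0
      have htri : ‖progress φ F X A 0 - progress φ F X A (t + 1)‖
          ≤ ‖progress φ F X A 0 - progress φ F X A t‖
            + ‖progress φ F X A (t + 1) - progress φ F X A t‖ := by
        have : progress φ F X A 0 - progress φ F X A (t + 1)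
            = (progress φ F X A 0 - progress φ F X A t)
              - (progress φ F X A (t + 1) - progress φ F X A t) := by ring
        rw [this]
        exact norm_sub_le _ _
      push_cast
      nlinarith
  have hfin := progress_final (φ := φ) (F := F) A hA hF
  have h0 : ‖progress φ F X A 0‖ = Asum := by
    rw [progress_zero, Complex.norm_real, Real.norm_eq_abs, abs_of_nonneg hAsum0]
  have htri : ‖progress φ F X A 0‖ ≤ ‖progress φ F X A 0 - progress φ F X A T‖
      + ‖progress φ F X A T‖ := by
    have : progress φ F X A 0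
        = (progress φ F X A 0 - progress φ F X A T) + progress φ F X A T := by ring
    nth_rewrite 1 [this]
    exact norm_add_le _ _
  have hT := hind T
  have hmain : (m : ℝ) * e / 18 ≤ (T : ℝ) * (2 * s * e) := by
    rw [← hBval]
    linarith
  have hcancel : (m : ℝ) ≤ 36 * (T : ℝ) * s := by
    have : (m : ℝ) * e ≤ (36 * (T : ℝ) * s) * e := by linarith
    exact le_of_mul_le_mul_right this he0
  have hs36 : s ≤ 36 * (T : ℝ) := by
    rw [← hss] at hcancel
    have : s * s ≤ (36 * (T : ℝ)) * s := hcancel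
    exact le_of_mul_le_mul_right this hs0
  calc (m : ℝ) = s * s := hss.symm
    _ ≤ (36 * (T : ℝ)) * (36 * (T : ℝ)) := mul_self_le_mul_self hs0.le hs36
    _ = 1296 * (T : ℝ) ^ 2 := by ring

end Core

end Vale.Agent.Lib.P362
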