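import Mathlib

/-!
Clifford generators on the Boolean lattice.  For a real function `φ` on subsets of `Fin n`,
`dirac φ S = ∑ i, sgn S i * φ (tog S i)` is the sum of the Clifford generators, and it satisfies
`∑ S, (dirac φ S)^2 = n * ∑ S, (φ S)^2`.
-/

namespace Vale.Agent.Lib.P362

open Finset

variable {n : ℕ}

/-- The sign `(-1)^k`, where `k` is the number of elements of `S` below `i`. -/
def sgn (S : Finset (Fin n)) (i : Fin n) : ℝ := (-1) ^ (S.filter (· < i)).card

/-- Toggle the membership of `i` in `S`. -/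
def tog (S : Finset (Fin n)) (i : Fin n) : Finset (Fin n) :=
  if i ∈ S then S.erase i else insert i S

lemma tog_of_mem {S : Finset (Fin n)} {i : Fin n} (h : i ∈ S) : tog S i = S.erase i := by
  simp [tog, h]

lemma tog_of_not_mem {S : Finset (Fin n)} {i : Fin n} (h : i ∉ S) : tog S i = insert i S := by
  simp [tog, h]

lemma mem_tog {S : Finset (Fin n)} {i j : Fin n} :
    j ∈ tog S i ↔ (if j = i then i ∉ S else j ∈ S) := by
  by_cases h : i ∈ S
  · rw [tog_of_mem h]
    by_cases hj : j = i
    · subst hj; simp [h]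
    · simp [hj]
  · rw [tog_of_not_mem h]
    by_cases hj : j = i
    · subst hj; simp [h]
    · simp [hj]

lemma tog_tog (S : Finset (Fin n)) (i : Fin n) : tog (tog S i) i = S := by
  ext j
  by_cases hj : j = i
  · subst hj; simp [mem_tog]
  · simp [mem_tog, hj]

lemma tog_comm (S : Finset (Fin n)) (i j : Fin n) : tog (tog S i) j = tog (tog S j) i := by
  ext k
  simp only [mem_tog]
  by_cases hi : k = i <;> by_cases hj : k = j
  · subst hi; subst hj; simp
  · subst hi; simp [hj]
  · subst hj; simp [hi]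
  · simp [hi, hj]

lemma sgn_mul_self (S : Finset (Fin n)) (i : Fin n) : sgn S i * sgn S i = 1 := by
  unfold sgn
  rw [← mul_pow]
  simp

lemma sgn_tog (S : Finset (Fin n)) (i j : Fin n) :
    sgn (tog S j) i = sgn S i * (if j < i then -1 else 1) := by
  unfold sgn
  by_cases hji : j < i
  · rw [if_pos hji]
    by_cases hS : j ∈ S
    · rw [tog_of_mem hS, filter_erase, card_erase_of_mem (by simp [hS, hji])]
      have hpos : 0 < (S.filter (· < i)).card := card_pos.mpr ⟨j, by simp [hS, hji]⟩
      obtain ⟨m, hm⟩ : ∃ m, (S.filter (· < i)).card = m + 1 := ⟨_, (Nat.succ_pred_eq_of_pos hpos).symm⟩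
      rw [hm]
      simp [pow_succ]
    · rw [tog_of_not_mem hS, filter_insert, if_pos hji, card_insert_of_notMem (by simp [hS])]
      simp [pow_succ]
  · rw [if_neg hji, mul_one]
    congr 2
    by_cases hS : j ∈ S
    · rw [tog_of_mem hS, filter_erase, erase_eq_of_notMem (by simp [hji])]
    · rw [tog_of_not_mem hS, filter_insert, if_neg hji]

/-- The involution `S ↦ tog S i`. -/
def togEquiv (i : Fin n) : Equiv.Perm (Finset (Fin n)) where
  toFun S := tog S i
  invFun S := tog S i
  left_inv S := tog_tog S i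
  right_inv S := tog_tog S i

/-- The sum of the Clifford generators on the Boolean lattice. -/
def dirac (φ : Finset (Fin n) → ℝ) (S : Finset (Fin n)) : ℝ := ∑ i, sgn S i * φ (tog S i)

lemma cross_term (φ : Finset (Fin n) → ℝ) {i j : Fin n} (hij : i ≠ j) :
    ∑ S, (sgn S i * φ (tog S i)) * (sgn S j * φ (tog S j)) = 0 := by
  set t : Finset (Fin n) → ℝ := fun S => (sgn S i * φ (tog S i)) * (sgn S j * φ (tog S j)) with ht
  have hflip : ∀ S, t (tog (tog S i) j) = - t S := by
    intro S
    simp only [ht]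
    have h1 : tog (tog (tog S i) j) i = tog S j := by rw [tog_comm (tog S i) j i, tog_tog]
    have h2 : tog (tog (tog S i) j) j = tog S i := tog_tog _ _
    rw [h1, h2, sgn_tog (tog S i) i j, sgn_tog (tog S i) j j, sgn_tog S i i, sgn_tog S j i]
    simp only [lt_self_iff_false, if_false, mul_one]
    rcases lt_or_gt_of_ne hij with h | h
    · have h' : ¬ j < i := not_lt.mpr h.le
      simp only [h, h', if_true, if_false]
      ring
    · have h' : ¬ i < j := not_lt.mpr h.le
      simp only [h, h', if_true, if_false]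
      ring
  have hsum : ∑ S, t S = ∑ S, t (tog (tog S i) j) :=
    (Equiv.sum_comp ((togEquiv i).trans (togEquiv j)) t).symm
  have : ∑ S, t S = - ∑ S, t S := by
    rw [← sum_neg_distrib]
    calc ∑ S, t S = ∑ S, t (tog (tog S i) j) := hsum
      _ = ∑ S, - t S := sum_congr rfl (fun S _ => hflip S)
  linarith

lemma diag_term (φ : Finset (Fin n) → ℝ) (i : Fin n) :
    ∑ S, (sgn S i * φ (tog S i)) * (sgn S i * φ (tog S i)) = ∑ S, (φ S) ^ 2 := by
  have h : ∀ S, (sgn S i * φ (tog S i)) * (sgn S i * φ (tog S i)) = (φ (tog S i)) ^ 2 := by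
    intro S
    have := sgn_mul_self S i
    calc _ = (sgn S i * sgn S i) * (φ (tog S i)) ^ 2 := by ring
      _ = _ := by rw [this, one_mul]
  rw [sum_congr rfl (fun S _ => h S)]
  exact Equiv.sum_comp (togEquiv i) (fun S => (φ S) ^ 2)

/-- The Clifford relations give the energy identity for `dirac`. -/
theorem dirac_energy (φ : Finset (Fin n) → ℝ) :
    ∑ S, (dirac φ S) ^ 2 = n * ∑ S, (φ S) ^ 2 := by
  have h1 : ∀ S, (dirac φ S) ^ 2 =
      ∑ i, ∑ j, (sgn S i * φ (tog S i)) * (sgn S j * φ (tog S j)) := by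
    intro S
    unfold dirac
    rw [sq, sum_mul_sum]
  rw [sum_congr rfl (fun S _ => h1 S), sum_comm]
  have h2 : ∀ i : Fin n, ∑ S, ∑ j, (sgn S i * φ (tog S i)) * (sgn S j * φ (tog S j))
      = ∑ S, (φ S) ^ 2 := by
    intro i
    rw [sum_comm, ← Finset.sum_erase_add _ _ (mem_univ i), diag_term, sum_eq_zero, zero_add]
    intro j hj
    exact cross_term φ (Ne.symm (ne_of_mem_erase hj))
  rw [sum_congr rfl (fun i _ => h2 i)]
  simp

end Vale.Agent.Lib.P362
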