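import Vale.Agent.Lib.P362.Clifford

/-!
A permutation of the variables acts on the Boolean lattice by a signed permutation commuting with
the Clifford sum.  If a down-closed family of subsets (with the empty set in it) is invariant and
no nonempty member is invariant, the supertrace of the action is one, so the restriction of the
Clifford sum to the family is singular.
-/

namespace Vale.Agent.Lib.P362

open Finset Matrix

variable {n : ℕ}

/-- The number of inversions of `g` on `A`. -/
def inv (g : Equiv.Perm (Fin n)) (A : Finset (Fin n)) : ℕ :=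
  ∑ a ∈ A, (A.filter (fun b => a < b ∧ g b < g a)).card

/-- The sign of `g` on `A`. -/
def sp (g : Equiv.Perm (Fin n)) (A : Finset (Fin n)) : ℝ := (-1) ^ inv g A

lemma inv_insert (g : Equiv.Perm (Fin n)) {A : Finset (Fin n)} {j : Fin n} (hj : j ∉ A) :
    inv g (insert j A) = inv g A + (A.filter (fun b => j < b ∧ g b < g j)).card
      + (A.filter (fun a => a < j ∧ g j < g a)).card := by
  unfold inv
  rw [sum_insert hj, filter_insert, if_neg (by simp)]
  have h : ∀ a ∈ A, ((insert j A).filter (fun b => a < b ∧ g b < g a)).card
      = (A.filter (fun b => a < b ∧ g b < g a)).card + (if a < j ∧ g j < g a then 1 else 0) := by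
    intro a _
    rw [filter_insert]
    split_ifs with hc
    · rw [card_insert_of_notMem (by simp [hj])]
    · simp
  rw [sum_congr rfl h, sum_add_distrib, card_filter (fun a => a < j ∧ g j < g a) A]
  ring

lemma card_split_one (g : Equiv.Perm (Fin n)) {A : Finset (Fin n)} {j : Fin n} (hj : j ∉ A) :
    (A.filter (· < j)).card = (A.filter (fun a => a < j ∧ g a < g j)).card
      + (A.filter (fun a => a < j ∧ g j < g a)).card := by
  rw [← card_filter_add_card_filter_not (s := A.filter (· < j)) (fun a => g a < g j),
    filter_filter, filter_filter]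
  congr 2
  apply filter_congr
  intro a ha
  have hne : g a ≠ g j := fun h => hj (by rwa [← g.injective h])
  constructor
  · rintro ⟨h1, h2⟩; exact ⟨h1, lt_of_le_of_ne (not_lt.mp h2) (Ne.symm hne)⟩
  · rintro ⟨h1, h2⟩; exact ⟨h1, not_lt.mpr h2.le⟩

lemma card_split_two (g : Equiv.Perm (Fin n)) {A : Finset (Fin n)} {j : Fin n} (hj : j ∉ A) :
    (A.filter (fun a => g a < g j)).card = (A.filter (fun a => a < j ∧ g a < g j)).card
      + (A.filter (fun a => j < a ∧ g a < g j)).card := by
  rw [← card_filter_add_card_filter_not (s := A.filter (fun a => g a < g j)) (· < j),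
    filter_filter, filter_filter]
  congr 1
  · congr 1
    apply filter_congr
    intro a _
    exact and_comm
  · congr 1
    apply filter_congr
    intro a ha
    have hne : a ≠ j := fun h => hj (by rwa [← h])
    constructor
    · rintro ⟨h1, h2⟩; exact ⟨lt_of_le_of_ne (not_lt.mp h2) (Ne.symm hne), h1⟩
    · rintro ⟨h1, h2⟩; exact ⟨h2, not_lt.mpr h1.le⟩

lemma sgn_map (g : Equiv.Perm (Fin n)) (A : Finset (Fin n)) (j : Fin n) :
    sgn (A.map g.toEmbedding) (g j) = (-1) ^ (A.filter (fun a => g a < g j)).card := by
  unfold sgn
  rw [filter_map, card_map]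
  rfl

lemma sign_insert (g : Equiv.Perm (Fin n)) {A : Finset (Fin n)} {j : Fin n} (hj : j ∉ A) :
    sp g A * sgn A j = sgn (A.map g.toEmbedding) (g j) * sp g (insert j A) := by
  rw [sgn_map]
  unfold sp sgn
  rw [inv_insert g hj, card_split_one g hj, card_split_two g hj]
  set p := (A.filter (fun a => a < j ∧ g a < g j)).card
  set q := (A.filter (fun a => a < j ∧ g j < g a)).card
  set r := (A.filter (fun a => j < a ∧ g a < g j)).card
  set i := inv g A
  have : p + r + (i + (A.filter (fun b => j < b ∧ g b < g j)).card + q) = i + (p + q) + 2 * r := by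
    have : (A.filter (fun b => j < b ∧ g b < g j)).card = r := rfl
    rw [this]; ring
  rw [← pow_add, ← pow_add, this, pow_add _ _ (2 * r), pow_mul]
  simp

lemma map_tog (g : Equiv.Perm (Fin n)) (R : Finset (Fin n)) (j : Fin n) :
    (tog R j).map g.toEmbedding = tog (R.map g.toEmbedding) (g j) := by
  ext k
  simp only [mem_map_equiv, mem_tog]
  by_cases hk : k = g j
  · subst hk; simp
  · have : g.symm k ≠ j := fun h => hk (by rw [← h]; simp)
    simp [hk, this]

lemma sp_mul_self (g : Equiv.Perm (Fin n)) (A : Finset (Fin n)) : sp g A * sp g A = 1 := by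
  unfold sp
  rw [← mul_pow]
  simp

lemma sp_tog (g : Equiv.Perm (Fin n)) (R : Finset (Fin n)) (j : Fin n) :
    sp g R * sgn R j = sgn (R.map g.toEmbedding) (g j) * sp g (tog R j) := by
  by_cases hj : j ∈ R
  · set A := R.erase j with hA
    have hjA : j ∉ A := by simp [hA]
    have hR : insert j A = R := insert_erase hj
    have h := sign_insert g hjA
    rw [hR] at h
    have e1 : sgn A j = sgn R j := by
      have := sgn_tog R j j
      rw [tog_of_mem hj] at this
      simpa using this
    have e2 : sgn (A.map g.toEmbedding) (g j) = sgn (R.map g.toEmbedding) (g j) := by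
      have := sgn_tog (R.map g.toEmbedding) (g j) (g j)
      rw [← map_tog, tog_of_mem hj] at this
      simpa [hA] using this
    rw [tog_of_mem hj, ← e1]
    rw [e1, e2] at h
    have s1 := sp_mul_self g A
    have s2 := sp_mul_self g R
    set a := sp g A
    set d := sp g R
    set b := sgn R j
    set c := sgn (R.map g.toEmbedding) (g j)
    show d * sgn A j = c * a
    rw [e1]
    calc d * b = d * b * (a * a) := by rw [s1, mul_one]
      _ = d * a * (a * b) := by ring
      _ = d * a * (c * d) := by rw [h]
      _ = (d * d) * (c * a) := by ring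
      _ = c * a := by rw [s2, one_mul]
  · rw [tog_of_not_mem hj]
    exact sign_insert g hj

section Trace

variable (face : Finset (Fin n) → Prop) [DecidablePred face] (g : Equiv.Perm (Fin n))

/-- The Clifford sum restricted to the family `face`. -/
def diracM : Matrix {S // face S} {S // face S} ℝ :=
  fun S T => ∑ i, if tog S.1 i = T.1 then sgn S.1 i else 0

/-- The parity of a subset. -/
def parityD : {S // face S} → ℝ := fun S => (-1) ^ S.1.card

/-- The signed permutation induced by `g`. -/
def signedPerm : Matrix {S // face S} {S // face S} ℝ :=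
  fun S T => if S.1 = T.1.map g.toEmbedding then sp g T.1 else 0

lemma parity_tog (S : Finset (Fin n)) (i : Fin n) :
    ((-1 : ℝ)) ^ (tog S i).card = - (-1) ^ S.card := by
  by_cases h : i ∈ S
  · rw [tog_of_mem h, card_erase_of_mem h]
    obtain ⟨m, hm⟩ : ∃ m, S.card = m + 1 := ⟨_, (Nat.succ_pred_eq_of_pos (card_pos.mpr ⟨i, h⟩)).symm⟩
    rw [hm]
    simp [pow_succ]
  · rw [tog_of_not_mem h, card_insert_of_notMem h]
    simp [pow_succ]

lemma anti_comm :
    diracM face * diagonal (parityD face) = - (diagonal (parityD face) * diracM face) := by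
  ext S T
  rw [mul_diagonal, Matrix.neg_apply, diagonal_mul]
  unfold diracM parityD
  rw [sum_mul, mul_sum, ← sum_neg_distrib]
  apply sum_congr rfl
  intro i _
  split_ifs with h
  · rw [← h, parity_tog]; ring
  · simp

variable {face g}

lemma comm_signed (hg : ∀ S, face (S.map g.toEmbedding) ↔ face S) :
    signedPerm face g * diracM face = diracM face * signedPerm face g := by
  ext S T
  rw [mul_apply, mul_apply]
  -- the unique preimage of `S`
  have hR0 : face (S.1.map g.symm.toEmbedding) := by
    rw [← hg]
    have : (S.1.map g.symm.toEmbedding).map g.toEmbedding = S.1 := by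
      ext k; simp
    rw [this]; exact S.2
  set R0 : {S // face S} := ⟨S.1.map g.symm.toEmbedding, hR0⟩ with hR0def
  have hS0 : S.1 = R0.1.map g.toEmbedding := by
    ext k; simp [hR0def]
  have hT1 : face (T.1.map g.toEmbedding) := (hg _).mpr T.2
  set R1 : {S // face S} := ⟨T.1.map g.toEmbedding, hT1⟩ with hR1def
  have e1 : ∑ R, signedPerm face g S R * diracM face R T
      = sp g R0.1 * diracM face R0 T := by
    rw [sum_eq_single R0]
    · unfold signedPerm
      rw [if_pos hS0]
    · intro R _ hR
      unfold signedPerm
      rw [if_neg, zero_mul]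
      intro h
      apply hR
      apply Subtype.ext
      rw [hS0] at h
      exact ((map_injective g.toEmbedding) h).symm
    · intro h; exact absurd (mem_univ _) h
  have e2 : ∑ R, diracM face S R * signedPerm face g R T
      = diracM face S R1 * sp g T.1 := by
    rw [sum_eq_single R1]
    · unfold signedPerm
      rw [if_pos rfl]
    · intro R _ hR
      unfold signedPerm
      rw [if_neg, mul_zero]
      intro h
      exact hR (Subtype.ext h)
    · intro h; exact absurd (mem_univ _) h
  rw [e1, e2]
  unfold diracM
  rw [mul_sum, sum_mul,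
    ← Equiv.sum_comp g (fun i => (if tog S.1 i = R1.1 then sgn S.1 i else 0) * sp g T.1)]
  apply sum_congr rfl
  intro j _
  have hiff : tog S.1 (g j) = R1.1 ↔ tog R0.1 j = T.1 := by
    rw [hS0, ← map_tog]
    exact (map_injective g.toEmbedding).eq_iff
  by_cases h : tog R0.1 j = T.1
  · rw [if_pos h, if_pos (hiff.mpr h), hS0, sp_tog g R0.1 j, h]
  · rw [if_neg h, if_neg (fun h' => h (hiff.mp h'))]
    simp

/-- The supertrace of `g` on the family: the signed count of the `g`-invariant members, where the
sign of a member `S` is `(-1) ^ |S|` times the sign of `g` on `S`. -/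
noncomputable def lefschetz (face : Finset (Fin n) → Prop) [DecidablePred face]
    (g : Equiv.Perm (Fin n)) : ℝ :=
  ∑ S ∈ univ.filter (fun S : Finset (Fin n) => S.map g.toEmbedding = S ∧ face S),
    (-1) ^ S.card * sp g S

omit [DecidablePred face] in
lemma trace_eq_lefschetz [DecidablePred face] :
    Matrix.trace (diagonal (parityD face) * signedPerm face g) = lefschetz face g := by
  unfold Matrix.trace lefschetz
  have h1 : ∀ S : {S // face S}, (diagonal (parityD face) * signedPerm face g).diag S
      = if S.1.map g.toEmbedding = S.1 then (-1) ^ S.1.card * sp g S.1 else 0 := by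
    intro S
    rw [Matrix.diag_apply, diagonal_mul]
    unfold signedPerm parityD
    by_cases h : S.1.map g.toEmbedding = S.1
    · rw [if_pos h.symm, if_pos h]
    · rw [if_neg (fun h' => h h'.symm), if_neg h, mul_zero]
  rw [sum_congr rfl (fun S _ => h1 S)]
  have h2 : univ.filter (fun S : Finset (Fin n) => S.map g.toEmbedding = S ∧ face S)
      = (univ.filter face).filter (fun S => S.map g.toEmbedding = S) := by
    rw [filter_filter]
    apply filter_congr
    intro S _
    exact and_comm
  rw [h2, sum_filter]
  exact (sum_subtype (univ.filter face) (by simp)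
    (fun S => if S.map g.toEmbedding = S then (-1) ^ S.card * sp g S else 0)).symm

omit [DecidablePred face] in
lemma lefschetz_eq_one [DecidablePred face] (h0 : face ∅)
    (hfree : ∀ S : Finset (Fin n), S.Nonempty → S.map g.toEmbedding = S → ¬ face S) :
    lefschetz face g = 1 := by
  unfold lefschetz
  have h : univ.filter (fun S : Finset (Fin n) => S.map g.toEmbedding = S ∧ face S) = {∅} := by
    ext S
    simp only [mem_filter, mem_univ, true_and, mem_singleton]
    constructor
    · rintro ⟨h1, h2⟩
      by_contra hne
      exact hfree S (nonempty_iff_ne_empty.mpr hne) h1 h2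
    · rintro rfl
      exact ⟨by simp, h0⟩
  rw [h, sum_singleton]
  simp [sp, inv]

theorem det_diracM_eq_zero (hg : ∀ S, face (S.map g.toEmbedding) ↔ face S)
    (hL : lefschetz face g ≠ 0) :
    (diracM face).det = 0 := by
  by_contra hdet
  set M := diracM face
  set E := diagonal (parityD face)
  set G := signedPerm face g
  have hU : IsUnit M.det := isUnit_iff_ne_zero.mpr hdet
  have hinv : M⁻¹ * M = 1 := nonsing_inv_mul M hU
  have hinv' : M * M⁻¹ = 1 := mul_nonsing_inv M hU
  have hA : M * E = - (E * M) := anti_comm face
  have hC : G * M = M * G := comm_signed hg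
  have htr : Matrix.trace (E * G) = lefschetz face g := trace_eq_lefschetz
  have key : Matrix.trace (E * G) = - Matrix.trace (E * G) := by
    calc Matrix.trace (E * G) = Matrix.trace ((M⁻¹ * M) * (E * G)) := by rw [hinv, one_mul]
      _ = Matrix.trace (M⁻¹ * ((M * E) * G)) := by simp only [Matrix.mul_assoc]
      _ = Matrix.trace (M⁻¹ * ((-(E * M)) * G)) := by rw [hA]
      _ = - Matrix.trace (M⁻¹ * (E * (M * G))) := by
          simp only [Matrix.neg_mul, Matrix.mul_neg, Matrix.trace_neg, Matrix.mul_assoc]
      _ = - Matrix.trace (M⁻¹ * (E * (G * M))) := by rw [hC]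
      _ = - Matrix.trace ((M⁻¹ * (E * G)) * M) := by simp only [Matrix.mul_assoc]
      _ = - Matrix.trace (M * (M⁻¹ * (E * G))) := by rw [Matrix.trace_mul_comm]
      _ = - Matrix.trace ((M * M⁻¹) * (E * G)) := by simp only [Matrix.mul_assoc]
      _ = - Matrix.trace (E * G) := by rw [hinv', one_mul]
  rw [htr] at key
  apply hL
  linarith

/-- Extension by zero of a function on the family. -/
noncomputable def extendZ (v : {S // face S} → ℝ) (S : Finset (Fin n)) : ℝ :=
  if h : face S then v ⟨S, h⟩ else 0

lemma dirac_extendZ (v : {S // face S} → ℝ) (S : {S // face S}) :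
    dirac (extendZ v) S.1 = (diracM face *ᵥ v) S := by
  unfold dirac diracM mulVec dotProduct
  simp only [sum_mul]
  rw [sum_comm]
  apply sum_congr rfl
  intro i _
  by_cases hf : face (tog S.1 i)
  · rw [sum_eq_single (⟨tog S.1 i, hf⟩ : {S // face S})]
    · simp [extendZ, hf]
    · intro T _ hT
      rw [if_neg, zero_mul]
      intro h
      exact hT (Subtype.ext h.symm)
    · intro h; exact absurd (mem_univ _) h
  · have : extendZ v (tog S.1 i) = 0 := by simp [extendZ, hf]
    rw [this, mul_zero, sum_eq_zero]
    intro T _
    rw [if_neg, zero_mul]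
    intro h
    exact hf (h ▸ T.2)

/-- Existence of a nonzero function on the family on which the Clifford sum vanishes on the
family. -/
theorem exists_harmonic (hg : ∀ S, face (S.map g.toEmbedding) ↔ face S)
    (hL : lefschetz face g ≠ 0) :
    ∃ φ : Finset (Fin n) → ℝ, (∃ S, φ S ≠ 0) ∧ (∀ S, ¬ face S → φ S = 0) ∧
      ∀ S, face S → dirac φ S = 0 := by
  have hdet := det_diracM_eq_zero hg hL
  obtain ⟨v, hv, hMv⟩ := Matrix.exists_mulVec_eq_zero_iff.mpr hdet
  refine ⟨extendZ v, ?_, ?_, ?_⟩
  · obtain ⟨S, hS⟩ := Function.ne_iff.mp hv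
    refine ⟨S.1, ?_⟩
    simpa [extendZ, S.2] using hS
  · intro S hS
    simp [extendZ, hS]
  · intro S hS
    have := dirac_extendZ v ⟨S, hS⟩
    rw [hMv] at this
    simpa using this

end Trace

end Vale.Agent.Lib.P362
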