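import Vale.Agent.Lib.P362.Harmonic
import Vale.Agent.Lib.P362.Adversary

/-!
Quantum query lower bounds from a symmetry of a Boolean function with nonzero Lefschetz number.
-/

namespace Vale.Agent.Lib.P362

open Finset

variable {n m : ℕ}

/-- The characteristic vector of a subset. -/
def pt (S : Finset (Fin m)) : Fin m → Bool := fun i => decide (i ∈ S)

/-- The subfunction of `f` on the coordinates in the image of `e`, the other coordinates being
fixed according to `ρ`. -/
noncomputable def subfun (f : (Fin n → Bool) → Bool) (e : Fin m ↪ Fin n) (ρ : Fin n → Bool) :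
    (Fin m → Bool) → Bool :=
  fun y => f (Function.extend e y ρ)

lemma pt_map (g : Equiv.Perm (Fin m)) (S : Finset (Fin m)) :
    pt (S.map g.toEmbedding) ∘ g = pt S := by
  funext i
  simp [pt]

lemma pt_tog {S : Finset (Fin m)} {i j : Fin m} (h : j ≠ i) : pt (tog S i) j = pt S j := by
  simp [pt, mem_tog, h]

/-- The main bound. -/
theorem bound_general {W : Type} [Fintype W] [DecidableEq W]
    (f : (Fin n → Bool) → Bool) (e : Fin m ↪ Fin n) (ρ : Fin n → Bool)
    (g : Equiv.Perm (Fin m)) (b : Bool)
    (hinv : ∀ y, subfun f e ρ (y ∘ g) = subfun f e ρ y)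
    (hL : lefschetz (fun S => subfun f e ρ (pt S) = b) g ≠ 0)
    (A : QueryAlg n W) (T : ℕ) (hA : A.Computes T f) :
    (m : ℝ) ≤ 1296 * (T : ℝ) ^ 2 := by
  have hg : ∀ S : Finset (Fin m), subfun f e ρ (pt (S.map g.toEmbedding)) = b
      ↔ subfun f e ρ (pt S) = b := by
    intro S
    rw [← hinv (pt (S.map g.toEmbedding)), pt_map]
  obtain ⟨φ, hne, hoff, hker⟩ := exists_harmonic hg hL
  refine adversary_bound (φ := φ) (F := fun S => subfun f e ρ (pt S) = b) (c := e)
    (X := fun S => Function.extend e (pt S) ρ) e.injective ?_ ?_ hne hoff hker A T hA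
  · intro S i j hj
    by_cases hr : ∃ i', e i' = j
    · obtain ⟨i', rfl⟩ := hr
      have hi' : i' ≠ i := fun h => hj (by rw [h])
      rw [e.injective.extend_apply, e.injective.extend_apply, pt_tog hi']
    · rw [Function.extend_apply' _ _ _ hr, Function.extend_apply' _ _ _ hr]
  · intro S i h1 h2 h3
    apply h2
    show f (Function.extend e (pt (tog S i)) ρ) = b
    rw [← h3]
    exact h1

lemma extend_refl (y ρ : Fin n → Bool) :
    Function.extend (Function.Embedding.refl (Fin n)) y ρ = y := by
  funext i
  exact (Function.Embedding.refl (Fin n)).injective.extend_apply y ρ i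

lemma subfun_refl (f : (Fin n → Bool) → Bool) (ρ : Fin n → Bool) (y : Fin n → Bool) :
    subfun f (Function.Embedding.refl (Fin n)) ρ y = f y := by
  unfold subfun
  rw [extend_refl]

/-- The bound when the only invariant set on which `f` takes its value at the empty set is the
empty set. -/
theorem bound_free {W : Type} [Fintype W] [DecidableEq W]
    (f : (Fin n → Bool) → Bool) (g : Equiv.Perm (Fin n))
    (hinv : ∀ y, f (y ∘ g) = f y)
    (hfree : ∀ S : Finset (Fin n), S.Nonempty → S.map g.toEmbedding = S →
      f (pt S) ≠ f (fun _ => false))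
    (A : QueryAlg n W) (T : ℕ) (hA : A.Computes T f) :
    (n : ℝ) ≤ 1296 * (T : ℝ) ^ 2 := by
  set ρ : Fin n → Bool := fun _ => false
  have h0 : pt (∅ : Finset (Fin n)) = fun _ => false := by
    funext i
    simp [pt]
  refine bound_general f (Function.Embedding.refl (Fin n)) ρ g (f (fun _ => false)) ?_ ?_ A T hA
  · intro y
    rw [subfun_refl, subfun_refl, hinv]
  · have hL : lefschetz (fun S => subfun f (Function.Embedding.refl (Fin n)) ρ (pt S)
        = f (fun _ => false)) g = 1 := by
      apply lefschetz_eq_one
      · rw [subfun_refl, h0]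
      · intro S hS hm
        rw [subfun_refl]
        exact hfree S hS hm
    rw [hL]
    exact one_ne_zero

/-- The bound for a function invariant under a permutation acting transitively by its powers (for
instance a cyclically invariant function) whose values at the two constant inputs differ. -/
theorem bound_cyclic {W : Type} [Fintype W] [DecidableEq W]
    (f : (Fin n → Bool) → Bool) (g : Equiv.Perm (Fin n))
    (hinv : ∀ y, f (y ∘ g) = f y) (htrans : ∀ i j, ∃ k : ℕ, (g ^ k) i = j)
    (hne : f (fun _ => true) ≠ f (fun _ => false))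
    (A : QueryAlg n W) (T : ℕ) (hA : A.Computes T f) :
    (n : ℝ) ≤ 1296 * (T : ℝ) ^ 2 := by
  refine bound_free f g hinv ?_ A T hA
  intro S hS hm
  obtain ⟨x, hx⟩ := hS
  have hpow : ∀ k : ℕ, (g ^ k) x ∈ S := by
    intro k
    induction k with
    | zero => simpa using hx
    | succ k ih =>
      rw [pow_succ', Equiv.Perm.mul_apply, ← hm]
      exact mem_map_of_mem _ ih
  have hu : pt S = fun _ => true := by
    funext j
    obtain ⟨k, hk⟩ := htrans x j
    simp only [pt, decide_eq_true_eq]
    rw [← hk]
    exact hpow k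
  rw [hu]
  exact hne

/-- The monotone case. -/
theorem bound_monotone {W : Type} [Fintype W] [DecidableEq W]
    (f : (Fin n → Bool) → Bool) (hmono : Monotone f) (hnc : ∃ x y, f x ≠ f y)
    (g : Equiv.Perm (Fin n))
    (hinv : ∀ y, f (y ∘ g) = f y) (htrans : ∀ i j, ∃ k : ℕ, (g ^ k) i = j)
    (A : QueryAlg n W) (T : ℕ) (hA : A.Computes T f) :
    (n : ℝ) ≤ 1296 * (T : ℝ) ^ 2 := by
  refine bound_cyclic f g hinv htrans ?_ A T hA
  intro heq
  obtain ⟨x, y, hxy⟩ := hnc
  have hconst : ∀ z, f z = f (fun _ => false) := by
    intro z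
    apply le_antisymm
    · rw [← heq]
      exact hmono (fun i => Bool.le_true _)
    · exact hmono (fun i => Bool.false_le _)
  exact hxy ((hconst x).trans (hconst y).symm)

end Vale.Agent.Lib.P362
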