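import Mathlib

/-!
# Monotone Boolean functions: decision trees versus the sensitive-edge adversary core

For a monotone `f` whose minterms pairwise share at most `ι` variables (or whose maxterms do),
`D(f)^2 ≤ 16 (ι+1) W^3`, where `W` is the largest product `a*b` over sets `X ⊆ f⁻¹(0)`,
`Y ⊆ f⁻¹(1)` with every `x ∈ X` having at least `a` one-bit up-neighbours in `Y` and every
`y ∈ Y` having at least `b` one-bit down-neighbours in `X` (Ambainis' relational adversary with
`l = l' = 1`, so `Q(f) = Ω(√W)`).
-/

namespace Vale.Agent.P362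

open Finset

variable {n : ℕ}

/-- Monotone Boolean function on subsets of `Fin n`. -/
def Mono (g : Finset (Fin n) → Bool) : Prop :=
  ∀ A B, A ⊆ B → g A = true → g B = true

/-- A minterm: a minimal set on which `g` is true. -/
def IsMinterm (g : Finset (Fin n) → Bool) (m : Finset (Fin n)) : Prop :=
  g m = true ∧ ∀ A, A ⊂ m → g A = false

/-- A maxterm: a minimal set whose complement is a false point of `g`. -/
def IsMaxterm (g : Finset (Fin n) → Bool) (T : Finset (Fin n)) : Prop :=
  g Tᶜ = false ∧ ∀ A, A ⊂ T → g Aᶜ = true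

/-- Deterministic decision trees querying membership of coordinates. -/
inductive DTree (n : ℕ) : Type
  | leaf (b : Bool) : DTree n
  | node (i : Fin n) (l r : DTree n) : DTree n

/-- Evaluation of a decision tree: `l` is taken when `i ∉ x`, `r` when `i ∈ x`. -/
def DTree.eval : DTree n → Finset (Fin n) → Bool
  | DTree.leaf b, _ => b
  | DTree.node i l r, x => if i ∈ x then r.eval x else l.eval x

/-- Depth of a decision tree: the worst-case number of queries. -/
def DTree.depth : DTree n → ℕ
  | DTree.leaf _ => 0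
  | DTree.node _ l r => 1 + max l.depth r.depth

/-- A sensitive-edge core of `g`: sets `X` of false points and `Y` of true points such that every
`x ∈ X` has at least `a` neighbours `x ∪ {t}` in `Y` and every `y ∈ Y` at least `b` neighbours
`y \ {z}` in `X`.  This is the relation in Ambainis' adversary theorem with `l = l' = 1`. -/
structure IsCore (g : Finset (Fin n) → Bool) (X Y : Finset (Finset (Fin n))) (a b : ℕ) : Prop where
  nonempty : X.Nonempty
  zero : ∀ x ∈ X, g x = false
  one : ∀ y ∈ Y, g y = true
  left : ∀ x ∈ X, a ≤ (univ.filter fun t => t ∉ x ∧ insert t x ∈ Y).card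
  right : ∀ y ∈ Y, b ≤ (univ.filter fun z => z ∈ y ∧ y.erase z ∈ X).card

/-- All cores of `g` have `a * b ≤ W`. -/
def CoreBound (g : Finset (Fin n) → Bool) (W : ℕ) : Prop :=
  ∀ X Y a b, IsCore g X Y a b → a * b ≤ W

/-- Two distinct minterms share at most `ι` variables. -/
def MintermOverlap (g : Finset (Fin n) → Bool) (ι : ℕ) : Prop :=
  ∀ m m', IsMinterm g m → IsMinterm g m' → m ≠ m' → (m ∩ m').card ≤ ι

/-- Two distinct maxterms share at most `ι` variables. -/
def MaxtermOverlap (g : Finset (Fin n) → Bool) (ι : ℕ) : Prop :=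
  ∀ m m', IsMaxterm g m → IsMaxterm g m' → m ≠ m' → (m ∩ m').card ≤ ι

/-! ### Existence of minterms and maxterms -/

lemma exists_minterm_subset (g : Finset (Fin n) → Bool) (A : Finset (Fin n)) (h : g A = true) :
    ∃ m, m ⊆ A ∧ IsMinterm g m := by
  classical
  have hne : ((A.powerset).filter fun B => g B = true).Nonempty :=
    ⟨A, by simp [h]⟩
  obtain ⟨m, hm, hmin⟩ := Finset.exists_min_image _ (fun B => B.card) hne
  simp only [mem_filter, mem_powerset] at hm hmin
  refine ⟨m, hm.1, hm.2, fun B hB => ?_⟩
  by_contra hc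
  have hB' : g B = true := by simpa using hc
  have := hmin B ⟨hB.subset.trans hm.1, hB'⟩
  exact absurd (card_lt_card hB) (by omega)

lemma exists_maxterm_subset (g : Finset (Fin n) → Bool) (A : Finset (Fin n)) (h : g Aᶜ = false) :
    ∃ T, T ⊆ A ∧ IsMaxterm g T := by
  classical
  have hne : ((A.powerset).filter fun B => g Bᶜ = false).Nonempty :=
    ⟨A, by simp [h]⟩
  obtain ⟨m, hm, hmin⟩ := Finset.exists_min_image _ (fun B => B.card) hne
  simp only [mem_filter, mem_powerset] at hm hmin
  refine ⟨m, hm.1, hm.2, fun B hB => ?_⟩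
  by_contra hc
  have hB' : g Bᶜ = false := by simpa using hc
  have := hmin B ⟨hB.subset.trans hm.1, hB'⟩
  exact absurd (card_lt_card hB) (by omega)

lemma minterm_inter_maxterm {g : Finset (Fin n) → Bool} (hg : Mono g) {m T : Finset (Fin n)}
    (hm : IsMinterm g m) (hT : IsMaxterm g T) : (m ∩ T).Nonempty := by
  classical
  by_contra hc
  have hd : m ⊆ Tᶜ := by
    intro e he
    simp only [mem_compl]
    intro heT
    exact hc ⟨e, mem_inter.2 ⟨he, heT⟩⟩
  have := hg _ _ hd hm.1
  rw [hT.1] at this
  exact absurd this (by simp)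

/-! ### Restrictions -/

/-- The restriction of `g` obtained by setting the variables in `S` to one and those in `Z` to
zero (the result still takes subsets of `Fin n` as arguments, and ignores `S ∪ Z`). -/
def restr (g : Finset (Fin n) → Bool) (S Z : Finset (Fin n)) : Finset (Fin n) → Bool :=
  fun A => g ((A \ Z) ∪ S)

lemma restr_mono {g : Finset (Fin n) → Bool} (hg : Mono g) (S Z : Finset (Fin n)) :
    Mono (restr g S Z) := by
  intro A B hAB h
  refine hg _ _ ?_ h
  exact union_subset_union (sdiff_subset_sdiff hAB (Subset.refl _)) (Subset.refl _)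

/-- Flipping an ignored coordinate does not change the value of a restriction. -/
lemma restr_insert_of_mem {g : Finset (Fin n) → Bool} {S Z : Finset (Fin n)} {e : Fin n}
    (he : e ∈ S ∪ Z) (A : Finset (Fin n)) :
    restr g S Z (insert e A) = restr g S Z A := by
  classical
  unfold restr
  congr 1
  ext a
  simp only [mem_union, mem_sdiff, mem_insert] at he ⊢
  by_cases hae : a = e
  · subst hae
    rcases he with he | he
    · simp [he]
    · simp [he]
  · simp [hae]

lemma restr_erase_of_mem {g : Finset (Fin n) → Bool} {S Z : Finset (Fin n)} {e : Fin n}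
    (he : e ∈ S ∪ Z) (A : Finset (Fin n)) :
    restr g S Z (A.erase e) = restr g S Z A := by
  classical
  by_cases hea : e ∈ A
  · have := restr_insert_of_mem (g := g) he (A.erase e)
    rw [insert_erase hea] at this
    exact this.symm
  · rw [erase_eq_of_notMem hea]

lemma minterm_restr_disjoint {g : Finset (Fin n) → Bool} {S Z m' : Finset (Fin n)}
    (hm : IsMinterm (restr g S Z) m') : Disjoint m' (S ∪ Z) := by
  classical
  rw [disjoint_left]
  intro e hem hes
  have h1 : (m'.erase e) ⊂ m' := erase_ssubset hem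
  have h2 := hm.2 _ h1
  rw [restr_erase_of_mem hes, hm.1] at h2
  exact absurd h2 (by simp)

lemma maxterm_restr_disjoint {g : Finset (Fin n) → Bool} {S Z T' : Finset (Fin n)}
    (hm : IsMaxterm (restr g S Z) T') : Disjoint T' (S ∪ Z) := by
  classical
  rw [disjoint_left]
  intro e hem hes
  have h1 : (T'.erase e) ⊂ T' := erase_ssubset hem
  have h2 := hm.2 _ h1
  have h3 : (T'.erase e)ᶜ = insert e T'ᶜ := by
    ext a
    by_cases hae : a = e
    · subst hae; simp
    · simp [hae]
  rw [h3, restr_insert_of_mem hes, hm.1] at h2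
  exact absurd h2 (by simp)

/-- Minterms of a restriction lift to minterms of `g`. -/
lemma minterm_restr_lift {g : Finset (Fin n) → Bool} (hg : Mono g) {S Z m' : Finset (Fin n)}
    (hm : IsMinterm (restr g S Z) m') :
    ∃ m₀, IsMinterm g m₀ ∧ m₀ \ S = m' := by
  classical
  have hd := minterm_restr_disjoint hm
  have hdZ : Disjoint m' Z := hd.mono_right subset_union_right
  have h1 : g (m' ∪ S) = true := by
    have := hm.1
    unfold restr at this
    rwa [sdiff_eq_self_of_disjoint hdZ] at this
  obtain ⟨m₀, hsub, hmin⟩ := exists_minterm_subset g _ h1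
  refine ⟨m₀, hmin, ?_⟩
  have hsub' : m₀ \ S ⊆ m' := by
    intro e he
    rw [mem_sdiff] at he
    rcases mem_union.1 (hsub he.1) with h | h
    · exact h
    · exact absurd h he.2
  by_contra hne
  have hss : m₀ \ S ⊂ m' := lt_of_le_of_ne hsub' hne
  have h2 := hm.2 _ hss
  have h3 : restr g S Z (m₀ \ S) = true := by
    unfold restr
    refine hg _ _ ?_ hmin.1
    intro e he
    by_cases heS : e ∈ S
    · exact mem_union_right _ heS
    · refine mem_union_left _ (mem_sdiff.2 ⟨mem_sdiff.2 ⟨he, heS⟩, ?_⟩)
      intro heZ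
      exact (disjoint_left.1 hdZ) (hsub' (mem_sdiff.2 ⟨he, heS⟩)) heZ
  rw [h2] at h3
  exact absurd h3 (by simp)

/-- Maxterms of a restriction lift to maxterms of `g`. -/
lemma maxterm_restr_lift {g : Finset (Fin n) → Bool} (hg : Mono g) {S Z T' : Finset (Fin n)}
    (hSZ : Disjoint S Z) (hm : IsMaxterm (restr g S Z) T') :
    ∃ T₀, IsMaxterm g T₀ ∧ T₀ \ Z = T' ∧ T₀ ⊆ T' ∪ Z := by
  classical
  have hd := maxterm_restr_disjoint hm
  have hdS : Disjoint T' S := hd.mono_right subset_union_left
  have h1 : g (T' ∪ Z)ᶜ = false := by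
    have h := hm.1
    unfold restr at h
    refine (Bool.eq_false_iff.2 fun hc => ?_)
    have h4 := hg _ ((T'ᶜ \ Z) ∪ S) ?_ hc
    · rw [h] at h4; exact absurd h4 (by simp)
    · intro e he
      simp only [mem_compl, mem_union, not_or] at he
      exact mem_union_left _ (mem_sdiff.2 ⟨mem_compl.2 he.1, he.2⟩)
  obtain ⟨T₀, hsub, hT⟩ := exists_maxterm_subset g _ h1
  have hsub' : T₀ \ Z ⊆ T' := by
    intro e he
    rw [mem_sdiff] at he
    rcases mem_union.1 (hsub he.1) with h | h
    · exact h
    · exact absurd h he.2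
  refine ⟨T₀, hT, ?_, hsub⟩
  by_contra hne
  have hss : T₀ \ Z ⊂ T' := lt_of_le_of_ne hsub' hne
  have h2 := hm.2 _ hss
  unfold restr at h2
  have h3 := hg _ T₀ᶜ ?_ h2
  · rw [hT.1] at h3; exact absurd h3 (by simp)
  · intro e he
    rcases mem_union.1 he with h | h
    · rw [mem_sdiff, mem_compl, mem_sdiff] at h
      simp only [mem_compl]
      intro heT
      exact h.1 ⟨heT, h.2⟩
    · simp only [mem_compl]
      intro heT
      rcases mem_union.1 (hsub heT) with h' | h'
      · exact (disjoint_left.1 hdS) h' h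
      · exact (disjoint_left.1 hSZ) h h'

/-! ### Closure of the hypotheses under restriction -/

lemma mintermOverlap_restr {g : Finset (Fin n) → Bool} (hg : Mono g) {ι : ℕ}
    (h : MintermOverlap g ι) (S Z : Finset (Fin n)) : MintermOverlap (restr g S Z) ι := by
  classical
  intro a b ha hb hab
  obtain ⟨a₀, ha₀, ha'⟩ := minterm_restr_lift hg ha
  obtain ⟨b₀, hb₀, hb'⟩ := minterm_restr_lift hg hb
  have hne : a₀ ≠ b₀ := by
    rintro rfl
    exact hab (ha'.symm.trans hb')
  refine le_trans (card_le_card ?_) (h a₀ b₀ ha₀ hb₀ hne)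
  intro e he
  rw [mem_inter] at he ⊢
  rw [← ha'] at he
  rw [← hb'] at he
  exact ⟨(mem_sdiff.1 he.1).1, (mem_sdiff.1 he.2).1⟩

lemma maxtermOverlap_restr {g : Finset (Fin n) → Bool} (hg : Mono g) {ι : ℕ}
    (h : MaxtermOverlap g ι) {S Z : Finset (Fin n)} (hSZ : Disjoint S Z) :
    MaxtermOverlap (restr g S Z) ι := by
  classical
  intro a b ha hb hab
  obtain ⟨a₀, ha₀, ha', -⟩ := maxterm_restr_lift hg hSZ ha
  obtain ⟨b₀, hb₀, hb', -⟩ := maxterm_restr_lift hg hSZ hb
  have hne : a₀ ≠ b₀ := by
    rintro rfl
    exact hab (ha'.symm.trans hb')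
  refine le_trans (card_le_card ?_) (h a₀ b₀ ha₀ hb₀ hne)
  intro e he
  rw [mem_inter] at he ⊢
  rw [← ha'] at he
  rw [← hb'] at he
  exact ⟨(mem_sdiff.1 he.1).1, (mem_sdiff.1 he.2).1⟩

/-- Cores of a restriction push forward to cores of `g`. -/
lemma coreBound_restr {g : Finset (Fin n) → Bool} {W : ℕ} (h : CoreBound g W)
    {S Z : Finset (Fin n)} : CoreBound (restr g S Z) W := by
  classical
  intro X Y a b hc
  let φ : Finset (Fin n) → Finset (Fin n) := fun A => (A \ Z) ∪ S
  have hφ : ∀ A, restr g S Z A = g (φ A) := fun A => rfl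
  -- flipped coordinates are not ignored
  have hup : ∀ x ∈ X, ∀ t, insert t x ∈ Y → t ∉ S ∪ Z := by
    intro x hx t ht hmem
    have h1 := hc.zero x hx
    have h2 := hc.one _ ht
    rw [restr_insert_of_mem hmem, h1] at h2
    exact absurd h2 (by simp)
  have hdown : ∀ y ∈ Y, ∀ z, y.erase z ∈ X → z ∉ S ∪ Z := by
    intro y hy z hz hmem
    have h1 := hc.zero _ hz
    have h2 := hc.one y hy
    rw [restr_erase_of_mem hmem, h2] at h1
    exact absurd h1 (by simp)
  refine h (X.image φ) (Y.image φ) a b ⟨hc.nonempty.image _, ?_, ?_, ?_, ?_⟩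
  · intro x hx
    obtain ⟨x', hx', rfl⟩ := mem_image.1 hx
    have := hc.zero x' hx'
    rwa [hφ] at this
  · intro y hy
    obtain ⟨y', hy', rfl⟩ := mem_image.1 hy
    have := hc.one y' hy'
    rwa [hφ] at this
  · intro x hx
    obtain ⟨x', hx', rfl⟩ := mem_image.1 hx
    refine le_trans (hc.left x' hx') (card_le_card ?_)
    intro t ht
    simp only [mem_filter, mem_univ, true_and] at ht ⊢
    have htn := hup x' hx' t ht.2
    simp only [mem_union, not_or] at htn
    constructor
    · simp only [φ, mem_union, mem_sdiff, not_or, not_and, not_not]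
      exact ⟨fun h' => absurd h' ht.1, htn.1⟩
    · refine mem_image.2 ⟨insert t x', ht.2, ?_⟩
      ext e
      simp only [φ, mem_union, mem_sdiff, mem_insert]
      by_cases het : e = t
      · subst het; simp [htn.2]
      · simp [het]
  · intro y hy
    obtain ⟨y', hy', rfl⟩ := mem_image.1 hy
    refine le_trans (hc.right y' hy') (card_le_card ?_)
    intro z hz
    simp only [mem_filter, mem_univ, true_and] at hz ⊢
    have hzn := hdown y' hy' z hz.2
    simp only [mem_union, not_or] at hzn
    constructor
    · simp only [φ, mem_union, mem_sdiff]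
      exact Or.inl ⟨hz.1, hzn.2⟩
    · refine mem_image.2 ⟨y'.erase z, hz.2, ?_⟩
      ext e
      simp only [φ, mem_union, mem_sdiff, mem_erase]
      by_cases hez : e = z
      · subst hez; simp [hzn.1]
      · simp [hez]

/-! ### Querying a whole set of variables -/

lemma restr_restr_zero (g : Finset (Fin n) → Bool) {i : Fin n} {S Z : Finset (Fin n)}
    (hi : i ∉ S) : restr (restr g ∅ {i}) S Z = restr g S (insert i Z) := by
  classical
  funext A
  unfold restr
  congr 1
  ext e
  simp only [mem_union, mem_sdiff, mem_singleton, mem_insert, notMem_empty, or_false, not_or]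
  by_cases hei : e = i
  · subst hei; simp [hi]
  · simp [hei]

lemma restr_restr_one (g : Finset (Fin n) → Bool) {i : Fin n} {S Z : Finset (Fin n)} :
    restr (restr g {i} ∅) S Z = restr g (insert i S) Z := by
  classical
  funext A
  unfold restr
  congr 1
  ext e
  simp only [mem_union, mem_sdiff, mem_singleton, mem_insert, notMem_empty, not_false_eq_true,
    and_true]
  tauto

lemma restr_empty (g : Finset (Fin n) → Bool) : restr g ∅ ∅ = g := by
  funext A
  simp [restr]

/-- Querying the variables of `Q` one by one. -/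
lemma query_all (Q : Finset (Fin n)) (d : ℕ) : ∀ g : Finset (Fin n) → Bool,
    (∀ S, S ⊆ Q → ∃ t : DTree n, (∀ x, t.eval x = restr g S (Q \ S) x) ∧ t.depth ≤ d) →
    ∃ t : DTree n, (∀ x, t.eval x = g x) ∧ t.depth ≤ Q.card + d := by
  classical
  induction Q using Finset.induction_on with
  | empty =>
    intro g h
    obtain ⟨t, ht, hd⟩ := h ∅ (Subset.refl _)
    refine ⟨t, fun x => ?_, by simpa using hd⟩
    rw [ht x]
    simp [restr]
  | insert i Q' hi ih =>
    intro g h
    have h0 : ∃ t : DTree n, (∀ x, t.eval x = restr g ∅ {i} x) ∧ t.depth ≤ Q'.card + d := by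
      apply ih
      intro S hS
      have hiS : i ∉ S := fun hc => hi (hS hc)
      obtain ⟨t, ht, hd⟩ := h S (hS.trans (subset_insert _ _))
      refine ⟨t, fun x => ?_, hd⟩
      rw [ht x, restr_restr_zero g hiS]
      congr 2
      ext e
      simp only [mem_sdiff, mem_insert]
      by_cases hei : e = i
      · subst hei; simp [hiS]
      · simp [hei]
    have h1 : ∃ t : DTree n, (∀ x, t.eval x = restr g {i} ∅ x) ∧ t.depth ≤ Q'.card + d := by
      apply ih
      intro S hS
      have hiS : i ∉ S := fun hc => hi (hS hc)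
      obtain ⟨t, ht, hd⟩ := h (insert i S) (insert_subset_insert _ hS)
      refine ⟨t, fun x => ?_, hd⟩
      have hset : insert i Q' \ insert i S = Q' \ S := by
        ext e
        simp only [mem_sdiff, mem_insert]
        by_cases hei : e = i
        · subst hei; simp [hi]
        · simp [hei]
      rw [ht x, restr_restr_one, hset]
    obtain ⟨t0, ht0, hd0⟩ := h0
    obtain ⟨t1, ht1, hd1⟩ := h1
    refine ⟨DTree.node i t0 t1, fun x => ?_, ?_⟩
    · simp only [DTree.eval]
      split_ifs with hix
      · rw [ht1 x]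
        unfold restr
        congr 1
        ext e
        simp only [mem_union, mem_sdiff, notMem_empty, not_false_eq_true, and_true, mem_singleton]
        constructor
        · rintro (h | rfl)
          · exact h
          · exact hix
        · exact Or.inl
      · rw [ht0 x]
        unfold restr
        congr 1
        ext e
        simp only [mem_union, mem_sdiff, notMem_empty, or_false, mem_singleton]
        constructor
        · exact fun h => h.1
        · intro h
          exact ⟨h, fun hc => hix (hc ▸ h)⟩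
    · simp only [DTree.depth, card_insert_of_notMem hi]
      have := max_le hd0 hd1
      omega

/-! ### Progress of the two kinds of rounds -/

/-- All maxterms have size at most `p`. -/
def AllMaxLe (g : Finset (Fin n) → Bool) (p : ℕ) : Prop := ∀ T, IsMaxterm g T → T.card ≤ p
/-- All minterms have size at most `q`. -/
def AllMinLe (g : Finset (Fin n) → Bool) (q : ℕ) : Prop := ∀ m, IsMinterm g m → m.card ≤ q

lemma allMinLe_restr {g : Finset (Fin n) → Bool} (hg : Mono g) {q : ℕ} (h : AllMinLe g q)
    (S Z : Finset (Fin n)) : AllMinLe (restr g S Z) q := by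
  intro m' hm
  obtain ⟨m₀, hm₀, rfl⟩ := minterm_restr_lift hg hm
  exact le_trans (card_le_card sdiff_subset) (h m₀ hm₀)

lemma allMaxLe_restr {g : Finset (Fin n) → Bool} (hg : Mono g) {p : ℕ} (h : AllMaxLe g p)
    {S Z : Finset (Fin n)} (hSZ : Disjoint S Z) : AllMaxLe (restr g S Z) p := by
  intro m' hm
  obtain ⟨m₀, hm₀, rfl, -⟩ := maxterm_restr_lift hg hSZ hm
  exact le_trans (card_le_card sdiff_subset) (h m₀ hm₀)

/-- Querying a minterm lowers all maxterm sizes. -/
lemma allMaxLe_query_minterm {g : Finset (Fin n) → Bool} (hg : Mono g) {p : ℕ}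
    (h : AllMaxLe g (p + 1)) {m S : Finset (Fin n)} (hm : IsMinterm g m) :
    AllMaxLe (restr g S (m \ S)) p := by
  classical
  intro T' hT'
  have hSZ : Disjoint S (m \ S) := disjoint_sdiff
  obtain ⟨T₀, hT₀, hdiff, hsub⟩ := maxterm_restr_lift hg hSZ hT'
  have hd := maxterm_restr_disjoint hT'
  obtain ⟨e, he⟩ := minterm_inter_maxterm hg hm hT₀
  rw [mem_inter] at he
  have heZ : e ∈ m \ S := by
    rcases mem_union.1 (hsub he.2) with h' | h'
    · exact absurd (mem_union.2 (by
        by_cases heS : e ∈ S
        · exact Or.inl heS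
        · exact Or.inr (mem_sdiff.2 ⟨he.1, heS⟩))) (disjoint_left.1 hd h')
    · exact h'
  have hlt : (T₀ \ (m \ S)).card < T₀.card :=
    card_lt_card ⟨sdiff_subset, fun hc => (mem_sdiff.1 (hc he.2)).2 heZ⟩
  have := h T₀ hT₀
  rw [← hdiff]
  omega

/-- Querying a maxterm lowers all minterm sizes. -/
lemma allMinLe_query_maxterm {g : Finset (Fin n) → Bool} (hg : Mono g) {q : ℕ}
    (h : AllMinLe g (q + 1)) {T S : Finset (Fin n)} (hT : IsMaxterm g T) :
    AllMinLe (restr g S (T \ S)) q := by
  classical
  intro m' hm'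
  obtain ⟨m₀, hm₀, hdiff⟩ := minterm_restr_lift hg hm'
  have hd := minterm_restr_disjoint hm'
  obtain ⟨e, he⟩ := minterm_inter_maxterm hg hm₀ hT
  rw [mem_inter] at he
  have heS : e ∈ S := by
    by_contra hc
    have h1 : e ∈ m' := by
      rw [← hdiff]
      exact mem_sdiff.2 ⟨he.1, hc⟩
    exact (disjoint_left.1 hd h1) (mem_union_right _ (mem_sdiff.2 ⟨he.2, hc⟩))
  have hlt : (m₀ \ S).card < m₀.card :=
    card_lt_card ⟨sdiff_subset, fun hc => (mem_sdiff.1 (hc he.1)).2 heS⟩
  have := h m₀ hm₀
  rw [← hdiff]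
  omega

/-! ### The tribes core -/

/-- Star core at a maxterm: every maxterm has size at most `W`. -/
lemma maxterm_card_le {g : Finset (Fin n) → Bool} {W : ℕ} (h : CoreBound g W)
    {T : Finset (Fin n)} (hT : IsMaxterm g T) : T.card ≤ W := by
  classical
  by_cases hne : T.Nonempty
  · have hc : IsCore g {Tᶜ} (T.image fun t => insert t Tᶜ) T.card 1 := by
      refine ⟨singleton_nonempty _, ?_, ?_, ?_, ?_⟩
      · intro x hx
        rw [mem_singleton] at hx
        rw [hx]; exact hT.1
      · intro y hy
        obtain ⟨t, ht, rfl⟩ := mem_image.1 hy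
        have h1 := hT.2 (T.erase t) (erase_ssubset ht)
        have h2 : (T.erase t)ᶜ = insert t Tᶜ := by
          ext a
          by_cases hae : a = t
          · subst hae; simp
          · simp [hae]
        rwa [h2] at h1
      · intro x hx
        rw [mem_singleton] at hx
        subst hx
        refine card_le_card ?_
        intro t ht
        simp only [mem_filter, mem_univ, true_and, mem_compl, not_not]
        exact ⟨ht, mem_image.2 ⟨t, ht, rfl⟩⟩
      · intro y hy
        obtain ⟨t, ht, rfl⟩ := mem_image.1 hy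
        refine one_le_card.2 ⟨t, mem_filter.2 ⟨mem_univ _, mem_insert_self _ _, ?_⟩⟩
        rw [erase_insert (by simpa using ht)]
        exact mem_singleton_self _
    simpa using h _ _ _ _ hc
  · rw [not_nonempty_iff_eq_empty] at hne
    simp [hne]

/-- Star core at a minterm: every minterm has size at most `W`. -/
lemma minterm_card_le {g : Finset (Fin n) → Bool} {W : ℕ} (h : CoreBound g W)
    {m : Finset (Fin n)} (hm : IsMinterm g m) : m.card ≤ W := by
  classical
  by_cases hne : m.Nonempty
  · obtain ⟨e, he⟩ := hne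
    have hc : IsCore g (m.image fun t => m.erase t) {m} 1 m.card := by
      refine ⟨⟨_, mem_image.2 ⟨e, he, rfl⟩⟩, ?_, ?_, ?_, ?_⟩
      · intro x hx
        obtain ⟨t, ht, rfl⟩ := mem_image.1 hx
        exact hm.2 _ (erase_ssubset ht)
      · intro y hy
        rw [mem_singleton] at hy
        rw [hy]; exact hm.1
      · intro x hx
        obtain ⟨t, ht, rfl⟩ := mem_image.1 hx
        refine one_le_card.2 ⟨t, ?_⟩
        simp only [mem_filter, mem_univ, true_and, mem_erase, not_true_eq_false, ne_eq,
          false_and, not_false_eq_true, mem_singleton, insert_erase ht, and_self]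
      · intro y hy
        rw [mem_singleton] at hy
        subst hy
        refine card_le_card ?_
        intro t ht
        simp only [mem_filter, mem_univ, true_and]
        exact ⟨ht, mem_image.2 ⟨t, ht, rfl⟩⟩
    simpa using h _ _ _ _ hc
  · rw [not_nonempty_iff_eq_empty] at hne
    simp [hne]

/-- Main counting lemma: if all minterms and all maxterms of a nonconstant monotone function have
size at least `β`, and two distinct minterms share at most `ι` variables, then a restriction to a
tribes function gives a core with `β^2 ≤ 4 (ι+1) a b`. -/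
theorem tribes_bound {g : Finset (Fin n) → Bool} (hg : Mono g) (h0 : g ∅ = false)
    {β ι W : ℕ} (hmin : ∀ m, IsMinterm g m → β ≤ m.card)
    (hmax : ∀ T, IsMaxterm g T → β ≤ T.card) (hov : MintermOverlap g ι) (hW : CoreBound g W)
    (h1 : g univ = true) : β ^ 2 ≤ 4 * (ι + 1) * W := by
  classical
  -- a maxterm exists, so `β ≤ W`
  have hβW : β ≤ W := by
    obtain ⟨T, -, hT⟩ := exists_maxterm_subset g univ (by simpa using h0)
    exact le_trans (hmax T hT) (maxterm_card_le hW hT)
  set ι' := ι + 1 with hι'
  have hι'pos : 0 < ι' := by omega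
  by_cases hsmall : β ≤ 2 * ι'
  · calc β ^ 2 = β * β := by ring
      _ ≤ (2 * ι') * W := Nat.mul_le_mul hsmall hβW
      _ ≤ 4 * ι' * W := by nlinarith
  have hsmall' : 2 * ι' < β := not_le.1 hsmall
  obtain ⟨d, hd1, hd2⟩ : ∃ d, d * (2 * ι') ≤ β ∧ β < (d + 1) * (2 * ι') := by
    refine ⟨β / (2 * ι'), Nat.div_mul_le_self _ _, ?_⟩
    have := Nat.lt_div_mul_add (a := β) (b := 2 * ι') (by omega)
    nlinarith
  -- the number of minterms used is `L = d + 1`
  set L := d + 1 with hL
  have hd3 : 2 * d ≤ β := by nlinarith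
  have hLβ : L ≤ β := by omega
  have hLι : L * ι' < β := by nlinarith
  obtain ⟨e₀, he₀⟩ : ∃ e : Fin n, True := by
    obtain ⟨m, -, hm⟩ := exists_minterm_subset g univ h1
    have hne : m.Nonempty := by
      by_contra hc
      rw [not_nonempty_iff_eq_empty] at hc
      have := hm.1
      rw [hc, h0] at this
      exact absurd this (by simp)
    obtain ⟨e, -⟩ := hne
    exact ⟨e, trivial⟩
  have : Nonempty (Fin n) := ⟨e₀⟩
  -- minterms
  let F : Finset (Finset (Fin n)) := univ.filter fun m => IsMinterm g m
  have hFmem : ∀ m, m ∈ F ↔ IsMinterm g m := by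
    intro m; simp [F]
  have hmne : ∀ m, IsMinterm g m → m.Nonempty := by
    intro m hm
    by_contra hc
    rw [not_nonempty_iff_eq_empty] at hc
    have := hm.1
    rw [hc, h0] at this
    exact absurd this (by simp)
  have hFcard : β ≤ F.card := by
    choose! r hr using fun m (hm : IsMinterm g m) => hmne m hm
    let Sh : Finset (Fin n) := F.image r
    have hSh : g Shᶜ = false := by
      refine Bool.eq_false_iff.2 fun hc => ?_
      obtain ⟨m, hsub, hm⟩ := exists_minterm_subset g _ (by simpa using hc)
      have h2 := hsub (hr m hm)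
      simp only [mem_compl] at h2
      exact h2 (mem_image.2 ⟨m, (hFmem m).2 hm, rfl⟩)
    obtain ⟨T, hsub, hT⟩ := exists_maxterm_subset g _ hSh
    calc β ≤ T.card := hmax T hT
      _ ≤ Sh.card := card_le_card hsub
      _ ≤ F.card := card_image_le
  obtain ⟨𝓛, h𝓛sub, h𝓛card⟩ := exists_subset_card_eq (hLβ.trans hFcard)
  have h𝓛min : ∀ m ∈ 𝓛, IsMinterm g m := fun m hm => (hFmem m).1 (h𝓛sub hm)
  -- private parts
  let N : Finset (Fin n) → Finset (Fin n) := fun m => m \ ((𝓛.erase m).biUnion id)
  have hNsub : ∀ m, N m ⊆ m := fun m => sdiff_subset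
  have hNdisj : ∀ m₁ m₂, m₂ ∈ 𝓛 → m₁ ≠ m₂ → Disjoint (N m₁) m₂ := by
    intro m₁ m₂ hm₂ hne
    rw [disjoint_left]
    intro e he1 he2
    refine (mem_sdiff.1 he1).2 (mem_biUnion.2 ⟨m₂, mem_erase.2 ⟨hne.symm, hm₂⟩, he2⟩)
  have hNcard : ∀ m ∈ 𝓛, β - d * ι' ≤ (N m).card := by
    intro m hm
    have h2 : (m ∩ (𝓛.erase m).biUnion id).card ≤ d * ι' := by
      rw [inter_biUnion]
      refine le_trans card_biUnion_le ?_
      have h3 : ∀ m' ∈ 𝓛.erase m, (m ∩ id m').card ≤ ι' := by
        intro m' hm'
        rw [mem_erase] at hm'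
        have := hov m m' (h𝓛min m hm) (h𝓛min m' hm'.2) hm'.1.symm
        simp only [id]
        omega
      refine le_trans (sum_le_card_nsmul _ _ _ h3) ?_
      rw [card_erase_of_mem hm, h𝓛card, hL]
      simp
    have h3 := card_sdiff_add_card_inter m ((𝓛.erase m).biUnion id)
    have h4 := hmin m (h𝓛min m hm)
    change β - d * ι' ≤ (m \ _).card
    omega
  set b := β - d * ι' with hb
  have hb2 : β ≤ 2 * b := by
    have : d * ι' * 2 ≤ β := by nlinarith
    omega
  have hbpos : 0 < b := by omega
  -- the core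
  let V : Finset (Fin n) := 𝓛.biUnion id
  let P : Finset (Fin n) := 𝓛.biUnion N
  have hPV : P ⊆ V := by
    intro e he
    obtain ⟨m, hm, hem⟩ := mem_biUnion.1 he
    exact mem_biUnion.2 ⟨m, hm, hNsub m hem⟩
  let Good : Finset (Fin n) → Prop := fun R => ∀ m ∈ 𝓛, (R ∩ N m).card = 1
  let GoodM : Finset (Fin n) → Prop := fun R =>
    ∃ m₀ ∈ 𝓛, R ∩ N m₀ = ∅ ∧ ∀ m ∈ 𝓛, m ≠ m₀ → (R ∩ N m).card = 1
  let X : Finset (Finset (Fin n)) := (P.powerset.filter Good).image fun R => V \ R
  let Y : Finset (Finset (Fin n)) := (P.powerset.filter GoodM).image fun R => V \ R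
  have hNN : ∀ m₁ m₂, m₂ ∈ 𝓛 → m₁ ≠ m₂ → ∀ e, e ∈ N m₁ → e ∉ N m₂ := by
    intro m₁ m₂ hm₂ hne e he1 he2
    exact (disjoint_left.1 (hNdisj m₁ m₂ hm₂ hne)) he1 (hNsub m₂ he2)
  have hcore : IsCore g X Y L b := by
    refine ⟨?_, ?_, ?_, ?_, ?_⟩
    · -- nonempty
      have hex : ∀ m ∈ 𝓛, ∃ e, e ∈ N m := by
        intro m hm
        have := hNcard m hm
        exact card_pos.1 (by omega)
      choose! r hr using hex
      refine ⟨V \ 𝓛.image r, mem_image.2 ⟨𝓛.image r, mem_filter.2 ⟨mem_powerset.2 ?_, ?_⟩, rfl⟩⟩
      · intro e he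
        obtain ⟨m, hm, rfl⟩ := mem_image.1 he
        exact mem_biUnion.2 ⟨m, hm, hr m hm⟩
      · intro m hm
        have : 𝓛.image r ∩ N m = {r m} := by
          ext e
          simp only [mem_inter, mem_image, mem_singleton]
          constructor
          · rintro ⟨⟨m', hm', rfl⟩, he⟩
            by_cases hmm : m' = m
            · rw [hmm]
            · exact absurd he (hNN m' m hm hmm _ (hr m' hm'))
          · rintro rfl
            exact ⟨⟨m, hm, rfl⟩, hr m hm⟩
        rw [this, card_singleton]
    · -- zero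
      intro x hx
      obtain ⟨R, hR, rfl⟩ := mem_image.1 hx
      obtain ⟨hRP, hRg⟩ := mem_filter.1 hR
      rw [mem_powerset] at hRP
      refine Bool.eq_false_iff.2 fun hc => ?_
      obtain ⟨m', hsub, hm'⟩ := exists_minterm_subset g _ (by simpa using hc)
      by_cases hm'L : m' ∈ 𝓛
      · -- contains the removed element
        have h2 := hRg m' hm'L
        obtain ⟨e, he⟩ := card_pos.1 (by omega : 0 < (R ∩ N m').card)
        rw [mem_inter] at he
        exact (mem_sdiff.1 (hsub (hNsub m' he.2))).2 he.1
      · have hsubV : m' ⊆ V := hsub.trans sdiff_subset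
        have h2 : m'.card ≤ L * ι' := by
          have h3 : m' = 𝓛.biUnion fun m => m' ∩ m := by
            ext e
            simp only [mem_biUnion, mem_inter]
            constructor
            · intro he
              obtain ⟨m, hm, hem⟩ := mem_biUnion.1 (hsubV he)
              exact ⟨m, hm, he, hem⟩
            · rintro ⟨m, -, he, -⟩
              exact he
          rw [h3]
          refine le_trans card_biUnion_le ?_
          have h4 : ∀ m ∈ 𝓛, (m' ∩ m).card ≤ ι' := by
            intro m hm
            have hne : m' ≠ m := fun hc => hm'L (hc ▸ hm)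
            have := hov m' m hm' (h𝓛min m hm) hne
            omega
          refine le_trans (sum_le_card_nsmul _ _ _ h4) ?_
          rw [h𝓛card]
          simp
        have := hmin m' hm'
        omega
    · -- one
      intro y hy
      obtain ⟨R, hR, rfl⟩ := mem_image.1 hy
      obtain ⟨hRP, m₀, hm₀, hemp, -⟩ := mem_filter.1 hR
      rw [mem_powerset] at hRP
      refine hg m₀ _ ?_ (h𝓛min m₀ hm₀).1
      intro e he
      refine mem_sdiff.2 ⟨mem_biUnion.2 ⟨m₀, hm₀, he⟩, fun heR => ?_⟩
      obtain ⟨m, hm, hem⟩ := mem_biUnion.1 (hRP heR)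
      by_cases hmm : m = m₀
      · subst hmm
        have : e ∈ R ∩ N m := mem_inter.2 ⟨heR, hem⟩
        rw [hemp] at this
        exact absurd this (by simp)
      · exact (disjoint_left.1 (hNdisj m m₀ hm₀ hmm)) hem he
    · -- left degree
      intro x hx
      obtain ⟨R, hR, rfl⟩ := mem_image.1 hx
      obtain ⟨hRP, hRg⟩ := mem_filter.1 hR
      rw [mem_powerset] at hRP
      have hRcard : R.card = L := by
        have h3 : R = 𝓛.biUnion fun m => R ∩ N m := by
          ext e
          simp only [mem_biUnion, mem_inter]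
          constructor
          · intro he
            obtain ⟨m, hm, hem⟩ := mem_biUnion.1 (hRP he)
            exact ⟨m, hm, he, hem⟩
          · rintro ⟨m, -, he, -⟩
            exact he
        rw [h3, card_biUnion]
        · rw [sum_congr rfl hRg]
          simp [h𝓛card]
        · intro m₁ hm₁ m₂ hm₂ hne
          refine disjoint_left.2 ?_
          intro e he1 he2
          exact hNN m₁ m₂ hm₂ hne e (mem_inter.1 he1).2 (mem_inter.1 he2).2
      rw [← hRcard]
      refine card_le_card ?_
      intro t ht
      simp only [mem_filter, mem_univ, true_and]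
      have htV : t ∈ V := hPV (hRP ht)
      refine ⟨fun hc => (mem_sdiff.1 hc).2 ht, ?_⟩
      have hins : insert t (V \ R) = V \ R.erase t := by
        ext e
        simp only [mem_insert, mem_sdiff, mem_erase, not_and, not_not]
        by_cases het : e = t
        · subst het; simp [htV]
        · simp [het]
      rw [hins]
      refine mem_image.2 ⟨R.erase t, mem_filter.2 ⟨mem_powerset.2 ((erase_subset _ _).trans hRP), ?_⟩, rfl⟩
      obtain ⟨m₀, hm₀, htm₀⟩ := mem_biUnion.1 (hRP ht)
      refine ⟨m₀, hm₀, ?_, ?_⟩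
      · -- `R ∩ N m₀ = {t}`
        have hone := hRg m₀ hm₀
        obtain ⟨a, ha⟩ := card_eq_one.1 hone
        have hta : t ∈ R ∩ N m₀ := mem_inter.2 ⟨ht, htm₀⟩
        rw [ha, mem_singleton] at hta
        apply eq_empty_of_forall_notMem
        intro e he
        rw [mem_inter, mem_erase] at he
        have h6 : e ∈ R ∩ N m₀ := mem_inter.2 ⟨he.1.2, he.2⟩
        rw [ha, mem_singleton] at h6
        exact he.1.1 (h6.trans hta.symm)
      · intro m hm hne
        rw [← hRg m hm]
        congr 1
        ext e
        simp only [mem_inter, mem_erase]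
        constructor
        · rintro ⟨⟨-, h6⟩, h7⟩
          exact ⟨h6, h7⟩
        · rintro ⟨h6, h7⟩
          refine ⟨⟨?_, h6⟩, h7⟩
          rintro rfl
          exact hNN m₀ m hm hne.symm _ htm₀ h7
    · -- right degree
      intro y hy
      obtain ⟨R, hR, rfl⟩ := mem_image.1 hy
      obtain ⟨hRP, m₀, hm₀, hemp, hoth⟩ := mem_filter.1 hR
      rw [mem_powerset] at hRP
      refine le_trans (hNcard m₀ hm₀) (card_le_card ?_)
      intro z hz
      simp only [mem_filter, mem_univ, true_and]
      have hzV : z ∈ V := mem_biUnion.2 ⟨m₀, hm₀, hNsub m₀ hz⟩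
      have hzR : z ∉ R := by
        intro hc
        have : z ∈ R ∩ N m₀ := mem_inter.2 ⟨hc, hz⟩
        rw [hemp] at this
        exact absurd this (by simp)
      refine ⟨mem_sdiff.2 ⟨hzV, hzR⟩, ?_⟩
      have hers : (V \ R).erase z = V \ insert z R := by
        ext e
        simp only [mem_erase, mem_sdiff, mem_insert, not_or]
        tauto
      rw [hers]
      refine mem_image.2 ⟨insert z R, mem_filter.2 ⟨mem_powerset.2 ?_, ?_⟩, rfl⟩
      · exact insert_subset (mem_biUnion.2 ⟨m₀, hm₀, hz⟩) hRP
      · intro m hm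
        by_cases hmm : m = m₀
        · subst hmm
          have : insert z R ∩ N m = {z} := by
            ext e
            simp only [mem_inter, mem_insert, mem_singleton]
            constructor
            · rintro ⟨rfl | h6, h7⟩
              · rfl
              · have : e ∈ R ∩ N m := mem_inter.2 ⟨h6, h7⟩
                rw [hemp] at this
                exact absurd this (by simp)
            · rintro rfl
              exact ⟨Or.inl rfl, hz⟩
          rw [this, card_singleton]
        · rw [← hoth m hm hmm]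
          congr 1
          ext e
          simp only [mem_inter, mem_insert]
          constructor
          · rintro ⟨rfl | h6, h7⟩
            · exact absurd h7 (hNN m₀ m hm (Ne.symm hmm) _ hz)
            · exact ⟨h6, h7⟩
          · rintro ⟨h6, h7⟩
            exact ⟨Or.inr h6, h7⟩
  have hLb := hW _ _ _ _ hcore
  have : β ^ 2 ≤ (L * (2 * ι')) * (2 * b) := by
    rw [pow_two]
    exact Nat.mul_le_mul hd2.le hb2
  calc β ^ 2 ≤ (L * (2 * ι')) * (2 * b) := this
    _ = 4 * ι' * (L * b) := by ring
    _ ≤ 4 * ι' * W := Nat.mul_le_mul_left _ hLb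

/-! ### Duality -/

/-- The dual function. -/
def dual (g : Finset (Fin n) → Bool) : Finset (Fin n) → Bool := fun A => !(g Aᶜ)

lemma dual_mono {g : Finset (Fin n) → Bool} (hg : Mono g) : Mono (dual g) := by
  intro A B hAB h
  unfold dual at h ⊢
  simp only [Bool.not_eq_true'] at h ⊢
  refine Bool.eq_false_iff.2 fun hc => ?_
  have := hg _ _ (compl_subset_compl.2 hAB) hc
  rw [h] at this
  exact absurd this (by simp)

lemma isMinterm_dual {g : Finset (Fin n) → Bool} {m : Finset (Fin n)} :
    IsMinterm (dual g) m ↔ IsMaxterm g m := by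
  unfold IsMinterm IsMaxterm dual
  simp

lemma isMaxterm_dual {g : Finset (Fin n) → Bool} {m : Finset (Fin n)} :
    IsMaxterm (dual g) m ↔ IsMinterm g m := by
  unfold IsMinterm IsMaxterm dual
  simp

lemma coreBound_dual {g : Finset (Fin n) → Bool} {W : ℕ} (h : CoreBound g W) :
    CoreBound (dual g) W := by
  classical
  intro X Y a b hc
  by_cases hY : Y.Nonempty
  · have hd : IsCore g (Y.image compl) (X.image compl) b a := by
      refine ⟨hY.image _, ?_, ?_, ?_, ?_⟩
      · intro x hx
        obtain ⟨y, hy, rfl⟩ := mem_image.1 hx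
        have := hc.one y hy
        simpa [dual] using this
      · intro y hy
        obtain ⟨x, hx, rfl⟩ := mem_image.1 hy
        have := hc.zero x hx
        simpa [dual] using this
      · intro x hx
        obtain ⟨y, hy, rfl⟩ := mem_image.1 hx
        refine le_trans (hc.right y hy) (card_le_card ?_)
        intro z hz
        simp only [mem_filter, mem_univ, true_and, mem_compl, not_not] at hz ⊢
        refine ⟨hz.1, mem_image.2 ⟨y.erase z, hz.2, ?_⟩⟩
        ext e
        by_cases hez : e = z
        · subst hez; simp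
        · simp [hez]
      · intro y hy
        obtain ⟨x, hx, rfl⟩ := mem_image.1 hy
        refine le_trans (hc.left x hx) (card_le_card ?_)
        intro t ht
        simp only [mem_filter, mem_univ, true_and, mem_compl] at ht ⊢
        refine ⟨ht.1, mem_image.2 ⟨insert t x, ht.2, ?_⟩⟩
        ext e
        by_cases het : e = t
        · subst het; simp
        · simp [het]
    have := h _ _ _ _ hd
    rwa [mul_comm] at this
  · rw [not_nonempty_iff_eq_empty] at hY
    obtain ⟨x, hx⟩ := hc.nonempty
    have h1 := hc.left x hx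
    rw [hY] at h1
    simp at h1
    simp [h1]

/-- The dual form of `tribes_bound`: two distinct maxterms share at most `ι` variables. -/
theorem tribes_bound_dual {g : Finset (Fin n) → Bool} (hg : Mono g) (h0 : g ∅ = false)
    {β ι W : ℕ} (hmin : ∀ m, IsMinterm g m → β ≤ m.card)
    (hmax : ∀ T, IsMaxterm g T → β ≤ T.card) (hov : MaxtermOverlap g ι) (hW : CoreBound g W)
    (h1 : g univ = true) : β ^ 2 ≤ 4 * (ι + 1) * W := by
  refine tribes_bound (g := dual g) (dual_mono hg) (by simp [dual, h1]) ?_ ?_ ?_
    (coreBound_dual hW) (by simp [dual, h0])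
  · intro m hm
    exact hmax m (isMinterm_dual.1 hm)
  · intro T hT
    exact hmin T (isMaxterm_dual.1 hT)
  · intro a b ha hb hab
    exact hov a b (isMinterm_dual.1 ha) (isMinterm_dual.1 hb) hab

/-! ### The recursion -/

/-- The hypotheses kept along the recursion. -/
structure Cls (ι W : ℕ) (g : Finset (Fin n) → Bool) : Prop where
  mono : Mono g
  ovl : MintermOverlap g ι ∨ MaxtermOverlap g ι
  core : CoreBound g W

lemma cls_restr {ι W : ℕ} {g : Finset (Fin n) → Bool} (h : Cls ι W g) {S Z : Finset (Fin n)}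
    (hSZ : Disjoint S Z) : Cls ι W (restr g S Z) := by
  refine ⟨restr_mono h.mono S Z, ?_, coreBound_restr h.core⟩
  rcases h.ovl with h1 | h1
  · exact Or.inl (mintermOverlap_restr h.mono h1 S Z)
  · exact Or.inr (maxtermOverlap_restr h.mono h1 hSZ)

/-- A small minterm or a small maxterm exists. -/
lemma exists_small {ι W : ℕ} {g : Finset (Fin n) → Bool} (h : Cls ι W g) (h0 : g ∅ = false)
    (h1 : g univ = true) :
    (∃ m, IsMinterm g m ∧ m.card ≤ Nat.sqrt (4 * (ι + 1) * W)) ∨
      (∃ T, IsMaxterm g T ∧ T.card ≤ Nat.sqrt (4 * (ι + 1) * W)) := by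
  by_contra hc
  push Not at hc
  obtain ⟨hc1, hc2⟩ := hc
  have hβ : (Nat.sqrt (4 * (ι + 1) * W) + 1) ^ 2 ≤ 4 * (ι + 1) * W := by
    rcases h.ovl with h2 | h2
    · exact tribes_bound h.mono h0 (fun m hm => hc1 m hm) (fun T hT => hc2 T hT) h2 h.core h1
    · exact tribes_bound_dual h.mono h0 (fun m hm => hc1 m hm) (fun T hT => hc2 T hT) h2 h.core h1
  have := Nat.lt_succ_sqrt' (4 * (ι + 1) * W)
  simp only [Nat.succ_eq_add_one] at this
  omega

/-- The two-kind round recursion: rounds of at most `B` queries, at most `p + q` rounds. -/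
theorem tree_exists {ι W : ℕ} (k : ℕ) : ∀ (p q : ℕ) (g : Finset (Fin n) → Bool), p + q ≤ k →
    Cls ι W g → AllMaxLe g p → AllMinLe g q →
    ∃ t : DTree n, (∀ x, t.eval x = g x) ∧ t.depth ≤ k * Nat.sqrt (4 * (ι + 1) * W) := by
  classical
  induction k with
  | zero =>
    intro p q g hk hc hp hq
    have hp0 : p = 0 := by omega
    -- `g` is constant
    by_cases h0 : g ∅ = true
    · refine ⟨DTree.leaf true, fun x => ?_, by simp [DTree.depth]⟩
      exact (hc.mono _ _ (empty_subset _) h0).symm
    · refine ⟨DTree.leaf false, fun x => ?_, by simp [DTree.depth]⟩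
      simp only [DTree.eval]
      symm
      refine Bool.eq_false_iff.2 fun hx => ?_
      have h1 : g univ = true := hc.mono _ _ (subset_univ _) hx
      obtain ⟨T, -, hT⟩ := exists_maxterm_subset g univ (by simpa using h0)
      have := hp T hT
      have hT0 : T = ∅ := card_eq_zero.1 (by omega)
      have h3 := hT.1
      rw [hT0] at h3
      simp [h1] at h3
  | succ k ih =>
    intro p q g hk hc hp hq
    by_cases h0 : g ∅ = true
    · refine ⟨DTree.leaf true, fun x => ?_, by simp [DTree.depth]⟩
      exact (hc.mono _ _ (empty_subset _) h0).symm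
    have h0' : g ∅ = false := by simpa using h0
    by_cases h1 : g univ = true
    swap
    · refine ⟨DTree.leaf false, fun x => ?_, by simp [DTree.depth]⟩
      simp only [DTree.eval]
      symm
      refine Bool.eq_false_iff.2 fun hx => ?_
      exact h1 (hc.mono _ _ (subset_univ _) hx)
    -- `g` is not constant: `p, q ≥ 1`
    have hp1 : 1 ≤ p := by
      obtain ⟨T, -, hT⟩ := exists_maxterm_subset g univ (by simpa using h0')
      have hne : T ≠ ∅ := by
        rintro rfl
        have h3 := hT.1
        simp [h1] at h3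
      exact le_trans (card_pos.2 (nonempty_iff_ne_empty.2 hne)) (hp T hT)
    have hq1 : 1 ≤ q := by
      obtain ⟨m, -, hm⟩ := exists_minterm_subset g univ h1
      have hne : m ≠ ∅ := by
        rintro rfl
        have h3 := hm.1
        rw [h0'] at h3
        exact absurd h3 (by simp)
      exact le_trans (card_pos.2 (nonempty_iff_ne_empty.2 hne)) (hq m hm)
    rcases exists_small hc h0' h1 with ⟨m, hm, hmB⟩ | ⟨T, hT, hTB⟩
    · obtain ⟨t, ht, hd⟩ := query_all m (k * Nat.sqrt (4 * (ι + 1) * W)) g (by
        intro S hS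
        have hSZ : Disjoint S (m \ S) := disjoint_sdiff
        obtain ⟨p', rfl⟩ : ∃ p', p = p' + 1 := ⟨p - 1, by omega⟩
        exact ih p' q (restr g S (m \ S)) (by omega) (cls_restr hc hSZ)
          (allMaxLe_query_minterm hc.mono hp hm) (allMinLe_restr hc.mono hq _ _))
      refine ⟨t, ht, le_trans hd ?_⟩
      have h5 : (k + 1) * Nat.sqrt (4 * (ι + 1) * W) =
          k * Nat.sqrt (4 * (ι + 1) * W) + Nat.sqrt (4 * (ι + 1) * W) := by ring
      rw [h5]
      omega
    · obtain ⟨t, ht, hd⟩ := query_all T (k * Nat.sqrt (4 * (ι + 1) * W)) g (by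
        intro S hS
        have hSZ : Disjoint S (T \ S) := disjoint_sdiff
        obtain ⟨q', rfl⟩ : ∃ q', q = q' + 1 := ⟨q - 1, by omega⟩
        exact ih p q' (restr g S (T \ S)) (by omega) (cls_restr hc hSZ)
          (allMaxLe_restr hc.mono hp hSZ) (allMinLe_query_maxterm hc.mono hq hT))
      refine ⟨t, ht, le_trans hd ?_⟩
      have h5 : (k + 1) * Nat.sqrt (4 * (ι + 1) * W) =
          k * Nat.sqrt (4 * (ι + 1) * W) + Nat.sqrt (4 * (ι + 1) * W) := by ring
      rw [h5]
      omega

/-- **Main theorem.**  For a monotone `f` whose distinct minterms share at most `ι` variables, or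
whose distinct maxterms do, and `W` bounding `a * b` over all sensitive-edge cores of `f`, there is
a decision tree computing `f` of depth `D` with `D^2 ≤ 16 (ι+1) W^3`. -/
theorem decisionTree_sq_le (f : Finset (Fin n) → Bool) (hf : Mono f) (ι W : ℕ)
    (hov : MintermOverlap f ι ∨ MaxtermOverlap f ι) (hW : CoreBound f W) :
    ∃ t : DTree n, (∀ x, t.eval x = f x) ∧ t.depth ^ 2 ≤ 16 * (ι + 1) * W ^ 3 := by
  have hc : Cls ι W f := ⟨hf, hov, hW⟩
  obtain ⟨t, ht, hd⟩ := tree_exists (ι := ι) (W := W) (W + W) W W f le_rfl hc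
    (fun T hT => maxterm_card_le hW hT) (fun m hm => minterm_card_le hW hm)
  refine ⟨t, ht, ?_⟩
  set B := Nat.sqrt (4 * (ι + 1) * W) with hB
  have hB2 : B ^ 2 ≤ 4 * (ι + 1) * W := Nat.sqrt_le' _
  calc t.depth ^ 2 ≤ ((W + W) * B) ^ 2 := Nat.pow_le_pow_left hd 2
    _ = 4 * W ^ 2 * B ^ 2 := by ring
    _ ≤ 4 * W ^ 2 * (4 * (ι + 1) * W) := Nat.mul_le_mul_left _ hB2
    _ = 16 * (ι + 1) * W ^ 3 := by ring

end Vale.Agent.P362
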